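import Vale.Agent.P225.Defs

/-!
# P225: the periods, the bump, and the profile `theta`
-/

namespace Vale.Agent.P225

open scoped ContDiff
open Filter Topology Real MeasureTheory

noncomputable section

/-! ### periods -/

lemma period_eq_iff {s : ℝ} (hs : 0 ≤ s) (j : ℕ) :
    period s = j ↔ (j : ℝ) ^ 8 ≤ s ∧ s < (j + 1 : ℕ) ^ 8 := by
  have key : ∀ i, i ≤ period s ↔ (i : ℝ) ^ 8 ≤ s := fun i => by
    rw [period, Nat.le_sqrt', Nat.le_sqrt', Nat.le_sqrt', Nat.le_floor_iff hs]
    push_cast; ring_nf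
  constructor
  · rintro rfl
    exact ⟨(key _).1 le_rfl, not_le.1 fun h => Nat.not_succ_le_self _ ((key _).2 h)⟩
  · rintro ⟨h1, h2⟩
    exact le_antisymm (not_lt.1 fun h => h2.not_ge ((key _).1 h)) ((key _).2 h1)

lemma period_spec {s : ℝ} (hs : 0 ≤ s) :
    (period s : ℝ) ^ 8 ≤ s ∧ s < ((period s : ℝ) + 1) ^ 8 := by
  have := (period_eq_iff hs _).1 rfl
  push_cast at this; exact this

lemma period_eq {j : ℕ} {s : ℝ} (h1 : (j : ℝ) ^ 8 ≤ s) (h2 : s < ((j : ℝ) + 1) ^ 8) :
    period s = j :=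
  (period_eq_iff ((by positivity : (0 : ℝ) ≤ (j : ℝ) ^ 8).trans h1) j).2 ⟨h1, by push_cast; exact h2⟩

lemma le_period {j : ℕ} {s : ℝ} (h : (j : ℝ) ^ 8 ≤ s) : j ≤ period s := by
  by_contra hc
  have h0 : 0 ≤ s := (by positivity : (0 : ℝ) ≤ (j : ℝ) ^ 8).trans h
  have h1 := (period_spec h0).2
  have h2 : ((period s : ℝ) + 1) ^ 8 ≤ (j : ℝ) ^ 8 := by
    gcongr; exact_mod_cast not_le.1 hc
  linarith

/-- The length of period `j`. -/
def plen (j : ℕ) : ℝ := ((j : ℝ) + 1) ^ 8 - (j : ℝ) ^ 8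

lemma plen_ge (j : ℕ) : 8 * (j : ℝ) ^ 7 ≤ plen j := by
  have hj : (0 : ℝ) ≤ j := by positivity
  rw [plen]
  nlinarith [pow_nonneg hj 2, pow_nonneg hj 3, pow_nonneg hj 4, pow_nonneg hj 5, pow_nonneg hj 6,
    sq_nonneg ((j : ℝ) + 1)]

lemma plen_le {j : ℕ} (hj : 1 ≤ j) : plen j ≤ 256 * (j : ℝ) ^ 7 := by
  have h : (1 : ℝ) ≤ j := by exact_mod_cast hj
  rw [plen]
  have hp : ∀ i ≤ 7, (j : ℝ) ^ i ≤ (j : ℝ) ^ 7 := fun i hi => pow_le_pow_right₀ h hi
  nlinarith [hp 0 (by norm_num), hp 1 (by norm_num), hp 2 (by norm_num), hp 3 (by norm_num),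
    hp 4 (by norm_num), hp 5 (by norm_num), hp 6 (by norm_num)]

lemma unit_nonneg (j : ℕ) : 0 ≤ unit' j := by rw [unit']; positivity

lemma unit_pos {j : ℕ} (hj : 1 ≤ j) : 0 < unit' j := by
  have : (1 : ℝ) ≤ j := by exact_mod_cast hj
  rw [unit']; positivity

/-- Everything fits into period `j`. -/
lemma fits {M j : ℕ} (hj : 3 * M + 4 ≤ j) : (3 * (M : ℝ) + 4) * unit' j ≤ plen j := by
  refine le_trans ?_ (plen_ge j)
  have h : (3 * (M : ℝ) + 4) ≤ j := by exact_mod_cast hj
  have := mul_le_mul_of_nonneg_right h (unit_nonneg j)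
  have h6 : (0 : ℝ) ≤ (j : ℝ) ^ 7 := by positivity
  rw [unit'] at *; nlinarith

/-! ### bump -/

lemma contDiff_bump₀ : ContDiff ℝ ∞ bump₀ :=
  (smoothTransition.contDiff.comp (contDiff_const.mul contDiff_id)).mul
    (smoothTransition.contDiff.comp (contDiff_const.sub (contDiff_const.mul contDiff_id)))

lemma bump₀_nonneg (x : ℝ) : 0 ≤ bump₀ x :=
  mul_nonneg (smoothTransition.nonneg _) (smoothTransition.nonneg _)

lemma bump₀_zero_left {x : ℝ} (h : x ≤ 0) : bump₀ x = 0 := by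
  simp [bump₀, smoothTransition.zero_of_nonpos (show 2 * x ≤ 0 by linarith)]

lemma bump₀_zero_right {x : ℝ} (h : 1 ≤ x) : bump₀ x = 0 := by
  simp [bump₀, smoothTransition.zero_of_nonpos (show 2 - 2 * x ≤ 0 by linarith)]

lemma bump₀_integral_pos : 0 < ∫ y in (0 : ℝ)..1, bump₀ y :=
  intervalIntegral.intervalIntegral_pos_of_pos_on (contDiff_bump₀.continuous.intervalIntegrable 0 1)
    (fun _ hx => mul_pos (smoothTransition.pos_of_pos (by linarith [hx.1]))
      (smoothTransition.pos_of_pos (by linarith [hx.2]))) zero_lt_one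

lemma contDiff_bump : ContDiff ℝ ∞ bump := contDiff_bump₀.div_const _

lemma bump_nonneg (x : ℝ) : 0 ≤ bump x := div_nonneg (bump₀_nonneg x) bump₀_integral_pos.le

lemma bump_zero_left {x : ℝ} (h : x ≤ 0) : bump x = 0 := by simp [bump, bump₀_zero_left h]

lemma bump_zero_right {x : ℝ} (h : 1 ≤ x) : bump x = 0 := by simp [bump, bump₀_zero_right h]

lemma integral_bump : ∫ x in (0 : ℝ)..1, bump x = 1 := by
  simp only [bump, intervalIntegral.integral_div]
  exact div_self bump₀_integral_pos.ne'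

lemma bump_bounded : ∃ C, 0 ≤ C ∧ ∀ x, bump x ≤ C := by
  refine ⟨1 / ∫ y in (0 : ℝ)..1, bump₀ y, (one_div_pos.2 bump₀_integral_pos).le, fun x => ?_⟩
  rw [bump]
  gcongr
  · exact bump₀_integral_pos.le
  · exact mul_le_one₀ (smoothTransition.le_one _) (smoothTransition.nonneg _)
      (smoothTransition.le_one _)

/-! ### the piece of one period -/

variable {M j : ℕ}

/-- The dwell plateau. -/
def plateau (M j : ℕ) (u : ℝ) : ℝ :=
  smoothTransition ((u - (3 * (M : ℝ) + 1) * unit' j) / unit' j) *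
    smoothTransition ((plen j - unit' j - u) / unit' j)

lemma thetaPiece_eq (τ : Fin M → ℝ) (u : ℝ) :
    thetaPiece M j τ u =
      (∑ i : Fin M, τ i / unit' j * bump ((u - (3 * (i : ℝ) + 1) * unit' j) / unit' j)) +
        thetaStar * plateau M j u := by
  simp only [thetaPiece, plateau, plen, Nat.cast_add, Nat.cast_one]; ring

lemma contDiff_thetaPiece (τ : Fin M → ℝ) : ContDiff ℝ ∞ (thetaPiece M j τ) := by
  unfold thetaPiece
  refine (ContDiff.sum fun i _ => contDiff_const.mul (contDiff_bump.comp ?_)).add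
    ((contDiff_const.mul (smoothTransition.contDiff.comp ?_)).mul
      (smoothTransition.contDiff.comp ?_))
  all_goals fun_prop

lemma plateau_zero_left (hN : 0 < unit' j) {u : ℝ} (h : u ≤ (3 * (M : ℝ) + 1) * unit' j) :
    plateau M j u = 0 := by
  simp [plateau, smoothTransition.zero_of_nonpos (div_nonpos_of_nonpos_of_nonneg
    (sub_nonpos.2 h) hN.le)]

lemma plateau_zero_right (hN : 0 < unit' j) {u : ℝ} (h : plen j - unit' j ≤ u) :
    plateau M j u = 0 := by
  simp [plateau, smoothTransition.zero_of_nonpos (div_nonpos_of_nonpos_of_nonneg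
    (sub_nonpos.2 h) hN.le)]

lemma plateau_one (hN : 0 < unit' j) {u : ℝ} (h1 : (3 * (M : ℝ) + 2) * unit' j ≤ u)
    (h2 : u ≤ plen j - 2 * unit' j) : plateau M j u = 1 := by
  rw [plateau, smoothTransition.one_of_one_le, smoothTransition.one_of_one_le, one_mul]
  · rw [le_div_iff₀ hN]; linarith
  · rw [le_div_iff₀ hN]; linarith

lemma plateau_mem (u : ℝ) : 0 ≤ plateau M j u ∧ plateau M j u ≤ 1 :=
  ⟨mul_nonneg (smoothTransition.nonneg _) (smoothTransition.nonneg _),
    mul_le_one₀ (smoothTransition.le_one _) (smoothTransition.nonneg _) (smoothTransition.le_one _)⟩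

lemma bump_shift_zero (hN : 0 < unit' j) {i u : ℝ}
    (h : u ≤ (3 * i + 1) * unit' j ∨ (3 * i + 2) * unit' j ≤ u) :
    bump ((u - (3 * i + 1) * unit' j) / unit' j) = 0 := by
  rcases h with h | h
  · exact bump_zero_left (div_nonpos_of_nonpos_of_nonneg (sub_nonpos.2 h) hN.le)
  · apply bump_zero_right; rw [le_div_iff₀ hN]; linarith

/-- In the excursion `k` only its bump is seen. -/
lemma thetaPiece_segment (hN : 0 < unit' j) (τ : Fin M → ℝ) (k : Fin M) {u : ℝ}
    (h1 : 3 * (k : ℝ) * unit' j ≤ u) (h2 : u ≤ 3 * ((k : ℝ) + 1) * unit' j) :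
    thetaPiece M j τ u =
      τ k / unit' j * bump ((u - (3 * (k : ℝ) + 1) * unit' j) / unit' j) := by
  have hk : (k : ℝ) + 1 ≤ M := by exact_mod_cast k.2
  have hk' := mul_le_mul_of_nonneg_right hk hN.le
  rw [thetaPiece_eq, plateau_zero_left hN (by nlinarith), mul_zero, add_zero]
  refine Finset.sum_eq_single k (fun i _ hi => ?_) (by simp)
  rw [bump_shift_zero hN, mul_zero]
  rcases lt_or_gt_of_ne (Fin.val_ne_of_ne hi) with h | h
  · right
    have : ((i : ℕ) : ℝ) + 1 ≤ k := by exact_mod_cast h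
    have := mul_le_mul_of_nonneg_right this hN.le
    linarith
  · left
    have : ((k : ℕ) : ℝ) + 1 ≤ i := by exact_mod_cast h
    have := mul_le_mul_of_nonneg_right this hN.le
    linarith

/-- After the excursions only the plateau is seen. -/
lemma thetaPiece_dwell (hN : 0 < unit' j) (τ : Fin M → ℝ) {u : ℝ}
    (h : (3 * (M : ℝ)) * unit' j ≤ u) : thetaPiece M j τ u = thetaStar * plateau M j u := by
  rw [thetaPiece_eq, add_eq_right]
  refine Finset.sum_eq_zero fun i _ => ?_
  rw [bump_shift_zero hN, mul_zero]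
  right
  have : ((i : ℕ) : ℝ) + 1 ≤ M := by exact_mod_cast i.2
  have := mul_le_mul_of_nonneg_right this hN.le
  linarith

/-- The piece vanishes near both ends of the period. -/
lemma thetaPiece_ends (hN : 0 < unit' j) (hfit : (3 * (M : ℝ) + 4) * unit' j ≤ plen j)
    (τ : Fin M → ℝ) {u : ℝ} (h : u ≤ unit' j ∨ plen j - unit' j ≤ u) :
    thetaPiece M j τ u = 0 := by
  have hM : (0 : ℝ) ≤ M := by positivity
  rw [thetaPiece_eq]
  rcases h with h | h
  · rw [plateau_zero_left hN (by nlinarith), mul_zero, add_zero]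
    refine Finset.sum_eq_zero fun i _ => ?_
    rw [bump_shift_zero hN, mul_zero]
    left
    have hi : (0 : ℝ) ≤ ((i : ℕ) : ℝ) := by positivity
    nlinarith
  · rw [plateau_zero_right hN h, mul_zero, add_zero]
    refine Finset.sum_eq_zero fun i _ => ?_
    rw [bump_shift_zero hN, mul_zero]
    right
    have hi : ((i : ℕ) : ℝ) + 1 ≤ M := by exact_mod_cast i.2
    nlinarith

/-! ### `theta` and `segment` globally -/

variable {j₀ : ℕ} {τ : ℕ → Fin M → ℝ}

lemma theta_of_lt {s : ℝ} (h : s < (j₀ : ℝ) ^ 8) : theta M j₀ τ s = 0 := if_pos h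

lemma theta_in_period (hj : j₀ ≤ j) {s : ℝ} (h1 : (j : ℝ) ^ 8 ≤ s) (h2 : s < ((j : ℝ) + 1) ^ 8) :
    theta M j₀ τ s = thetaPiece M j (τ j) (s - (j : ℝ) ^ 8) := by
  have : (j₀ : ℝ) ^ 8 ≤ (j : ℝ) ^ 8 := by gcongr
  rw [theta, if_neg (by linarith), period_eq h1 h2]

/-- The same formula holds on the closed period. -/
lemma theta_in_closed_period (hM : 3 * M + 4 ≤ j₀) (hj : j₀ ≤ j) {s : ℝ} (h1 : (j : ℝ) ^ 8 ≤ s)
    (h2 : s ≤ ((j : ℝ) + 1) ^ 8) :
    theta M j₀ τ s = thetaPiece M j (τ j) (s - (j : ℝ) ^ 8) := by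
  rcases h2.lt_or_eq with h2 | h2
  · exact theta_in_period hj h1 h2
  · have hn : s = ((j + 1 : ℕ) : ℝ) ^ 8 := by push_cast; exact h2
    rw [theta_in_period (j := j + 1) (by omega) hn.ge
      (by rw [hn]; exact pow_lt_pow_left₀ (by linarith) (by positivity) (by norm_num)),
      thetaPiece_ends (unit_pos (by omega)) (fits (by omega)) _
        (Or.inl (by rw [hn, sub_self]; exact unit_nonneg _)),
      thetaPiece_ends (unit_pos (by omega)) (fits (by omega)) _
        (Or.inr (by rw [plen, h2]; linarith [unit_nonneg j]))]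

/-- Near every point `theta` is one piece, or zero. -/
lemma theta_eventually (hM : 3 * M + 4 ≤ j₀) (τ : ℕ → Fin M → ℝ) (s : ℝ) :
    (theta M j₀ τ =ᶠ[𝓝 s] fun _ => 0) ∨ ∃ j, j₀ ≤ j ∧ (j : ℝ) ^ 8 < s ∧
      s < ((j : ℝ) + 1) ^ 8 ∧
        theta M j₀ τ =ᶠ[𝓝 s] fun t => thetaPiece M j (τ j) (t - (j : ℝ) ^ 8) := by
  rcases lt_or_ge s ((j₀ : ℝ) ^ 8) with h | h
  · left; filter_upwards [eventually_lt_nhds h] with t ht using theta_of_lt ht
  · have h0 : 0 ≤ s := (by positivity : (0 : ℝ) ≤ (j₀ : ℝ) ^ 8).trans h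
    obtain ⟨h1, h2⟩ := period_spec h0
    set j := period s with hjdef
    have hj : j₀ ≤ j := le_period h
    rcases h1.lt_or_eq with h1 | h1
    · right
      refine ⟨j, hj, h1, h2, ?_⟩
      filter_upwards [eventually_gt_nhds h1, eventually_lt_nhds h2] with t ht1 ht2 using
        theta_in_period hj ht1.le ht2
    · left
      have hN : 0 < unit' j := unit_pos (by omega)
      rcases hj.lt_or_eq with hj' | hj'
      · obtain ⟨i, hi⟩ : ∃ i, j = i + 1 := ⟨j - 1, by omega⟩
        have hNi : 0 < unit' i := unit_pos (by omega)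
        have e : ((j : ℕ) : ℝ) = (i : ℝ) + 1 := by rw [hi]; push_cast; ring
        have hlen : s - unit' i < s := by linarith
        filter_upwards [eventually_gt_nhds hlen, eventually_lt_nhds (show s < s + unit' j by linarith),
          eventually_lt_nhds h2] with t ht1 ht2 ht3
        rcases lt_or_ge t s with hts | hts
        · have hfit := fits (M := M) (j := i) (by omega)
          have hM' : (0 : ℝ) ≤ M := by positivity
          rw [theta_in_period (j := i) (by omega) (by rw [plen] at hfit; rw [← h1, e] at ht1; nlinarith)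
            (by rw [← e, h1]; exact hts)]
          exact thetaPiece_ends hNi hfit _ (Or.inr (by rw [plen]; rw [← h1, e] at ht1; linarith))
        · rw [theta_in_period hj (h1.le.trans hts) ht3]
          exact thetaPiece_ends hN (fits (by omega)) _ (Or.inl (by rw [h1]; linarith))
      · filter_upwards [eventually_lt_nhds (show s < s + unit' j by linarith),
          eventually_lt_nhds h2] with t ht2 ht3
        rcases lt_or_ge t s with hts | hts
        · exact theta_of_lt (by rw [hj', h1]; exact hts)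
        · rw [theta_in_period hj (h1.le.trans hts) ht3]
          exact thetaPiece_ends hN (fits (by omega)) _ (Or.inl (by rw [h1]; linarith))

lemma contDiff_theta (hM : 3 * M + 4 ≤ j₀) (τ : ℕ → Fin M → ℝ) :
    ContDiff ℝ ∞ (theta M j₀ τ) := by
  refine contDiff_iff_contDiffAt.2 fun s => ?_
  rcases theta_eventually hM τ s with h | ⟨j, _, _, _, h⟩
  · exact contDiffAt_const.congr_of_eventuallyEq h
  · exact (((contDiff_thetaPiece (τ j)).comp
      (contDiff_id.sub contDiff_const)).contDiffAt).congr_of_eventuallyEq h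

lemma segment_of_lt {s : ℝ} (h : s < (j₀ : ℝ) ^ 8) : segment M j₀ s = none := if_pos h

lemma segment_in_excursion (hM : 3 * M + 4 ≤ j₀) (hj : j₀ ≤ j) (k : Fin M) {s : ℝ}
    (h1 : (j : ℝ) ^ 8 + 3 * (k : ℝ) * unit' j ≤ s)
    (h2 : s < (j : ℝ) ^ 8 + 3 * ((k : ℝ) + 1) * unit' j) : segment M j₀ s = some k := by
  have hN : 0 < unit' j := unit_pos (by omega)
  have hk : (k : ℝ) + 1 ≤ M := by exact_mod_cast k.2
  have hk' := mul_le_mul_of_nonneg_right hk hN.le
  have hk0 : 0 ≤ 3 * (k : ℝ) * unit' j := by positivity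
  have hfit := fits (M := M) (j := j) (by omega)
  rw [plen] at hfit
  have hj0 : (j₀ : ℝ) ^ 8 ≤ (j : ℝ) ^ 8 := by gcongr
  have hp : period s = j := period_eq (by linarith) (by linarith)
  have hfl : ⌊(s - (j : ℝ) ^ 8) / (3 * unit' j)⌋₊ = (k : ℕ) := by
    rw [Nat.floor_eq_iff (div_nonneg (by linarith) (by positivity)), le_div_iff₀ (by positivity),
      div_lt_iff₀ (by positivity)]
    constructor <;> linarith
  simp only [segment, hp, hfl, if_neg (show ¬ s < (j₀ : ℝ) ^ 8 by linarith), dif_pos k.2, Fin.eta]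

lemma segment_in_dwell (hM : 3 * M + 4 ≤ j₀) (hj : j₀ ≤ j) {s : ℝ}
    (h1 : (j : ℝ) ^ 8 + 3 * (M : ℝ) * unit' j ≤ s) (h2 : s < ((j : ℝ) + 1) ^ 8) :
    segment M j₀ s = none := by
  have hN : 0 < unit' j := unit_pos (by omega)
  have h0 : 0 ≤ 3 * (M : ℝ) * unit' j := by positivity
  have hj0 : (j₀ : ℝ) ^ 8 ≤ (j : ℝ) ^ 8 := by gcongr
  have hp : period s = j := period_eq (by linarith) h2
  have hfl : M ≤ ⌊(s - (j : ℝ) ^ 8) / (3 * unit' j)⌋₊ := by
    refine Nat.le_floor ?_
    rw [le_div_iff₀ (by positivity)]; linarith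
  simp only [segment, hp, if_neg (show ¬ s < (j₀ : ℝ) ^ 8 by linarith), dif_neg (not_lt.2 hfl)]

end

end Vale.Agent.P225
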