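import Vale.Agent.P225.Profile.Cap

/-!
# P225: the constants and the volume radius `rho`
-/

namespace Vale.Agent.P225

open scoped ContDiff
open Filter Topology Real

noncomputable section

lemma thetaStar_pos : 0 < thetaStar :=
  div_pos (log_pos (by norm_num)) (by norm_num)

lemma exp_two_m_thetaStar : exp (58 * thetaStar) = 51 / 50 := by
  rw [thetaStar, mul_div_cancel₀ _ (by norm_num : (58 : ℝ) ≠ 0), exp_log (by norm_num)]

lemma thetaStar_le : thetaStar ≤ 1 / 2900 := by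
  have := log_le_sub_one_of_pos (show (0 : ℝ) < 51 / 50 by norm_num)
  rw [thetaStar]; linarith

lemma r2Inf_pos : 0 < r2Inf := by norm_num [r2Inf]

lemma rhoInf_pos : 0 < rhoInf := sqrt_pos.2 (mul_pos r2Inf_pos (exp_pos _))

lemma rhoInf_sq : rhoInf ^ 2 = r2Inf * exp (2 * thetaStar) :=
  sq_sqrt (mul_pos r2Inf_pos (exp_pos _)).le

lemma rhoInf_lt_one : rhoInf < 1 := by
  rw [rhoInf, sqrt_lt' one_pos, one_pow]
  have h : (r2Inf * exp (2 * thetaStar)) ^ 29 < 1 := by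
    rw [mul_pow, ← exp_nat_mul, show ((29 : ℕ) : ℝ) * (2 * thetaStar) = 58 * thetaStar by ring,
      exp_two_m_thetaStar]
    norm_num [r2Inf]
  exact (pow_lt_one_iff_of_nonneg (mul_pos r2Inf_pos (exp_pos _)).le (by norm_num)).1 h

/-- The coefficient of the cap. -/
def capCoef (κ : ℝ) (j₀ : ℕ) : ℝ := 1 - rhoInf - κ * (cap 2 / √((j₀ : ℝ) ^ 8))

/-- The cap part of `rho`. -/
def capPart (s : ℝ) : ℝ := cap (2 * exp (-s)) / cap 2

lemma sqrt_pow8 (j : ℕ) : √((j : ℝ) ^ 8) = (j : ℝ) ^ 4 := by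
  rw [show (j : ℝ) ^ 8 = ((j : ℝ) ^ 4) ^ 2 by ring, sqrt_sq (by positivity)]

lemma rho_eq (κ : ℝ) (j₀ : ℕ) (s : ℝ) :
    rho κ j₀ s = rhoInf + κ * psi ((j₀ : ℝ) ^ 8) s + capCoef κ j₀ * capPart s := rfl

lemma capPart_of_nonpos {s : ℝ} (hs : s ≤ 0) : capPart s = 1 := by
  rw [capPart, cap_of_two_le, div_self cap_two_pos.ne']
  nlinarith [one_le_exp (neg_nonneg.2 hs)]

lemma capPart_nonneg (s : ℝ) : 0 ≤ capPart s :=
  div_nonneg (cap_nonneg (by positivity)) cap_two_pos.le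

lemma capPart_le_one (s : ℝ) : capPart s ≤ 1 :=
  (div_le_one cap_two_pos).2 (cap_le_cap_two _)

lemma capPart_le_exp (s : ℝ) : capPart s ≤ 2 * exp (-s) := by
  rw [capPart, div_le_iff₀ cap_two_pos]
  nlinarith [cap_le_self (show 0 ≤ 2 * exp (-s) by positivity),
    mul_nonneg (exp_pos (-s)).le (sub_nonneg.2 one_le_cap_two)]

lemma hasDerivAt_capPart (s : ℝ) :
    HasDerivAt capPart (-(capD (2 * exp (-s)) * (2 * exp (-s))) / cap 2) s := by
  have h : HasDerivAt (fun t => 2 * exp (-t)) (2 * (exp (-s) * -1)) s :=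
    ((hasDerivAt_id s).neg.exp).const_mul 2
  exact (((hasDerivAt_cap _).comp s h).div_const _).congr_deriv (by ring)

lemma contDiff_capPart : ContDiff ℝ ∞ capPart :=
  (contDiff_cap.comp (contDiff_const.mul contDiff_neg.exp)).div_const _

variable {κ : ℝ} {j₀ : ℕ}

/-- The standing conditions on the parameters of `rho`. -/
def RhoOK (κ : ℝ) (j₀ : ℕ) : Prop := 0 < κ ∧ 2 ≤ j₀ ∧ 0 ≤ capCoef κ j₀

lemma eventually_rhoOK (hκ : 0 < κ) : ∀ᶠ j₀ : ℕ in atTop, RhoOK κ j₀ := by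
  have h : Tendsto (fun j : ℕ => κ * (cap 2 / √((j : ℝ) ^ 8))) atTop (𝓝 0) := by
    have h1 : Tendsto (fun j : ℕ => ((j : ℝ) ^ 4)) atTop atTop :=
      (tendsto_pow_atTop (by norm_num)).comp tendsto_natCast_atTop_atTop
    simpa [sqrt_pow8] using (h1.const_div_atTop (cap 2)).const_mul κ
  filter_upwards [h.eventually (eventually_lt_nhds (sub_pos.2 rhoInf_lt_one)),
    eventually_ge_atTop 2] with j hj hj2
  exact ⟨hκ, hj2, by rw [capCoef]; linarith⟩

lemma RhoOK.S_pos (h : RhoOK κ j₀) : (0 : ℝ) < (j₀ : ℝ) ^ 8 := by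
  have : (2 : ℝ) ≤ j₀ := by exact_mod_cast h.2.1
  positivity

lemma RhoOK.contDiff (h : RhoOK κ j₀) : ContDiff ℝ ∞ (rho κ j₀) :=
  ((contDiff_const (c := rhoInf)).add (contDiff_const.mul (contDiff_psi h.S_pos))).add
    ((contDiff_const (c := capCoef κ j₀)).mul contDiff_capPart)

lemma RhoOK.capCoef_le_one (h : RhoOK κ j₀) : capCoef κ j₀ ≤ 1 := by
  have := rhoInf_pos
  have : 0 ≤ κ * (cap 2 / √((j₀ : ℝ) ^ 8)) :=
    mul_nonneg h.1.le (div_nonneg cap_two_pos.le (sqrt_nonneg _))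
  unfold capCoef; linarith

lemma RhoOK.rho_nonpos (h : RhoOK κ j₀) {s : ℝ} (hs : s ≤ 0) : rho κ j₀ s = 1 := by
  rw [rho_eq, capPart_of_nonpos hs, psi_eq_max h.S_pos (by linarith [h.S_pos]), capCoef]; ring

lemma RhoOK.rhoInf_le (h : RhoOK κ j₀) (s : ℝ) : rhoInf ≤ rho κ j₀ s := by
  rw [rho_eq]
  nlinarith [mul_nonneg h.1.le (psi_nonneg h.S_pos s),
    mul_nonneg h.2.2 (capPart_nonneg s)]

lemma RhoOK.rho_le_one (h : RhoOK κ j₀) (s : ℝ) : rho κ j₀ s ≤ 1 := by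
  rw [rho_eq]
  have h1 := mul_le_mul_of_nonneg_left (psi_le_max h.S_pos s) h.1.le
  have h2 := mul_le_mul_of_nonneg_left (capPart_le_one s) h.2.2
  unfold capCoef at h2 ⊢; linarith

lemma RhoOK.rho_pos (h : RhoOK κ j₀) (s : ℝ) : 0 < rho κ j₀ s :=
  rhoInf_pos.trans_le (h.rhoInf_le s)

lemma RhoOK.rho_sub_le (h : RhoOK κ j₀) (s : ℝ) :
    rho κ j₀ s - rhoInf ≤ 2 * κ / (j₀ : ℝ) ^ 4 + 2 * exp (-s) := by
  rw [rho_eq]
  have h1 := mul_le_mul_of_nonneg_left (psi_le_max h.S_pos s) h.1.le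
  have h2 : κ * (cap 2 / √((j₀ : ℝ) ^ 8)) ≤ 2 * κ / (j₀ : ℝ) ^ 4 := by
    rw [sqrt_pow8, mul_div, mul_comm 2 κ]
    gcongr
    · exact h.1.le
    · exact cap_two_le
  have h3 := mul_le_mul h.capCoef_le_one (capPart_le_exp s) (capPart_nonneg s) zero_le_one
  linarith

/-- The derivative of `rho` on `s > 0`. -/
lemma RhoOK.hasDerivAt (h : RhoOK κ j₀) {s : ℝ} (hs : 0 < s) :
    HasDerivAt (rho κ j₀)
      (κ * -(capD (√((j₀ : ℝ) ^ 8) / √s) / (2 * s * √s)) +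
        capCoef κ j₀ * (-(capD (2 * exp (-s)) * (2 * exp (-s))) / cap 2)) s :=
  (((hasDerivAt_psi h.S_pos hs).const_mul κ).const_add rhoInf).add
    ((hasDerivAt_capPart s).const_mul _)

lemma RhoOK.deriv_nonpos (h : RhoOK κ j₀) (s : ℝ) : deriv (rho κ j₀) s ≤ 0 := by
  rcases le_or_gt s 0 with hs | hs
  · refine le_of_eq ?_
    rcases hs.lt_or_eq with hs | hs
    · have : rho κ j₀ =ᶠ[𝓝 s] fun _ => 1 := by
        filter_upwards [eventually_lt_nhds hs] with t ht using h.rho_nonpos ht.le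
      simp [this.deriv_eq]
    · subst hs
      have hd : HasDerivAt (rho κ j₀) (deriv (rho κ j₀) 0) 0 :=
        (h.contDiff.differentiable (by simp) 0).hasDerivAt
      have h1 : HasDerivWithinAt (rho κ j₀) 0 (Set.Iic 0) 0 :=
        (hasDerivWithinAt_const (0 : ℝ) (Set.Iic 0) (1 : ℝ)).congr
          (fun t ht => h.rho_nonpos ht) (h.rho_nonpos le_rfl)
      exact (uniqueDiffWithinAt_Iic 0).eq_deriv _ hd.hasDerivWithinAt h1
  · rw [(h.hasDerivAt hs).deriv]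
    have := capD_nonneg (√((j₀ : ℝ) ^ 8) / √s)
    have := capD_nonneg (2 * exp (-s))
    have := cap_two_pos
    have := h.1
    have := h.2.2
    have e1 : 0 ≤ κ * (capD (√((j₀ : ℝ) ^ 8) / √s) / (2 * s * √s)) := by positivity
    have e2 : 0 ≤ capCoef κ j₀ * (capD (2 * exp (-s)) * (2 * exp (-s)) / cap 2) := by positivity
    rw [neg_div, mul_neg, mul_neg]; linarith

lemma RhoOK.abs_deriv_le (h : RhoOK κ j₀) {s : ℝ} (hs : 0 < s) :
    |deriv (rho κ j₀) s| ≤ κ / (s * √s) + 2 * exp (-s) := by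
  rw [abs_of_nonpos (h.deriv_nonpos s), (h.hasDerivAt hs).deriv]
  have e1 : κ * (capD (√((j₀ : ℝ) ^ 8) / √s) / (2 * s * √s)) ≤ κ / (s * √s) := by
    rw [mul_div]
    have : 0 < s * √s := mul_pos hs (sqrt_pos.2 hs)
    rw [div_le_div_iff₀ (by positivity) this]
    nlinarith [mul_le_mul_of_nonneg_left (capD_le_one (√((j₀ : ℝ) ^ 8) / √s))
      (mul_pos h.1 this).le, mul_pos h.1 this]
  have e2 : capCoef κ j₀ * (capD (2 * exp (-s)) * (2 * exp (-s)) / cap 2) ≤ 2 * exp (-s) := by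
    have h1 : capD (2 * exp (-s)) * (2 * exp (-s)) / cap 2 ≤ 2 * exp (-s) := by
      rw [div_le_iff₀ cap_two_pos]
      have := exp_pos (-s)
      nlinarith [capD_le_one (2 * exp (-s)), one_le_cap_two]
    have := mul_le_mul h.capCoef_le_one h1
      (div_nonneg (mul_nonneg (capD_nonneg _) (by positivity)) cap_two_pos.le) zero_le_one
    linarith
  rw [neg_div, mul_neg, mul_neg]; linarith

end

end Vale.Agent.P225
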