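import Vale.Agent.P225.Profile.Rho

/-!
# P225: the second derivative of `rho`
-/

namespace Vale.Agent.P225

open scoped ContDiff
open Filter Topology Real

noncomputable section

variable {S : ℝ} {κ : ℝ} {j₀ : ℕ}

lemma deriv_capD_of_le {u : ℝ} (h : u ≤ 1) : deriv capD u = 0 := by
  refine IsLocalMax.deriv_eq_zero (Eventually.of_forall fun v => ?_)
  rw [capD_of_le h]
  exact capD_le_one v

lemma differentiable_capD : Differentiable ℝ capD := contDiff_capD.differentiable (by simp)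

lemma capPart_second (s : ℝ) :
    HasDerivAt (deriv capPart)
      ((deriv capD (2 * exp (-s)) * (2 * exp (-s)) ^ 2 + capD (2 * exp (-s)) * (2 * exp (-s))) /
        cap 2) s := by
  have hz : HasDerivAt (fun t => 2 * exp (-t)) (2 * (exp (-s) * -1)) s :=
    ((hasDerivAt_id s).neg.exp).const_mul 2
  have h : deriv capPart = fun t => -(capD (2 * exp (-t)) * (2 * exp (-t))) / cap 2 :=
    funext fun t => (hasDerivAt_capPart t).deriv
  rw [h]
  refine ((((differentiable_capD _).hasDerivAt.comp s hz).mul hz).neg.div_const _).congr_deriv ?_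
  simp only [Function.comp_apply]
  ring

lemma capPart_ineq (s : ℝ) : deriv (deriv capPart) s + deriv capPart s ≤ 0 := by
  rw [(capPart_second s).deriv, (hasDerivAt_capPart s).deriv, ← add_div]
  refine div_nonpos_of_nonpos_of_nonneg ?_ cap_two_pos.le
  nlinarith [mul_nonpos_of_nonpos_of_nonneg (deriv_capD_nonpos (2 * exp (-s)))
    (sq_nonneg (2 * exp (-s)))]

lemma capPart_add_deriv_nonneg (s : ℝ) : 0 ≤ capPart s + deriv capPart s := by
  rw [(hasDerivAt_capPart s).deriv, capPart, ← add_div]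
  refine div_nonneg ?_ cap_two_pos.le
  linarith [mul_capD_le_cap (show 0 ≤ 2 * exp (-s) by positivity)]

lemma psi_second (hS : 0 < S) {s : ℝ} (hs : 0 < s) :
    HasDerivAt (deriv (psi S))
      ((deriv capD (√S / √s) * (√S / √s) + 3 * capD (√S / √s)) / (4 * s ^ 2 * √s)) s := by
  have hu : HasDerivAt (fun t => √S / √t) (√S * -(1 / (2 * s * √s))) s :=
    ((hasDerivAt_invSqrt hs).const_mul √S).congr_of_eventuallyEq
      (Eventually.of_forall fun t => by simp [div_eq_mul_inv])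
  have hden : HasDerivAt (fun t => 2 * t * √t) (2 * 1 * √s + 2 * s * (1 / (2 * √s))) s :=
    ((hasDerivAt_id s).const_mul 2).mul (hasDerivAt_sqrt hs.ne')
  have hne : 2 * s * √s ≠ 0 := by
    have := sqrt_pos.2 hs
    positivity
  have h := ((((differentiable_capD _).hasDerivAt.comp s hu).div hden hne).neg).congr_of_eventuallyEq
    (f₁ := deriv (psi S)) (by
      filter_upwards [eventually_gt_nhds hs] with t ht
      rw [(hasDerivAt_psi hS ht).deriv]
      rfl)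
  refine h.congr_deriv ?_
  simp only [Function.comp_apply]
  have := sqrt_pos.2 hs
  have hsq := sq_sqrt hs.le
  field_simp
  simp only [hsq]
  ring_nf
  rw [hsq]
  ring

lemma psi_eventually_const (hS : 0 < S) {s : ℝ} (h : s < S / 4) :
    psi S =ᶠ[𝓝 s] fun _ => cap 2 / √S := by
  filter_upwards [eventually_lt_nhds h] with t ht using psi_eq_max hS ht.le

lemma psi_ineq (hS : 8 ≤ S) (s : ℝ) : deriv (deriv (psi S)) s + deriv (psi S) s ≤ 0 := by
  have hS0 : 0 < S := by linarith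
  rcases lt_or_ge s (S / 4) with h | h
  · have e := psi_eventually_const hS0 h
    simp [e.deriv_eq, e.deriv.deriv_eq]
  have hs : 2 ≤ s := by linarith
  have hs0 : 0 < s := by linarith
  rw [(psi_second hS0 hs0).deriv, (hasDerivAt_psi hS0 hs0).deriv]
  have := sqrt_pos.2 hs0
  have hD := capD_nonneg (√S / √s)
  have hu : 0 ≤ √S / √s := by positivity
  have e : (deriv capD (√S / √s) * (√S / √s) + 3 * capD (√S / √s)) / (4 * s ^ 2 * √s) +
      -(capD (√S / √s) / (2 * s * √s)) =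
      (deriv capD (√S / √s) * (√S / √s) + (3 - 2 * s) * capD (√S / √s)) / (4 * s ^ 2 * √s) := by
    field_simp
    ring
  rw [e]
  refine div_nonpos_of_nonpos_of_nonneg ?_ (by positivity)
  nlinarith [mul_nonpos_of_nonpos_of_nonneg (deriv_capD_nonpos (√S / √s)) hu]

lemma psi_far (hS : 8 ≤ S) {s : ℝ} (h : S ≤ s) :
    deriv (psi S) s = -(1 / (2 * s * √s)) ∧
      deriv (deriv (psi S)) s = 3 / (4 * s ^ 2 * √s) := by
  have hS0 : 0 < S := by linarith
  have hs0 : 0 < s := by linarith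
  have hu : √S / √s ≤ 1 := (div_le_one (sqrt_pos.2 hs0)).2 (sqrt_le_sqrt h)
  rw [(psi_second hS0 hs0).deriv, (hasDerivAt_psi hS0 hs0).deriv, capD_of_le hu,
    deriv_capD_of_le hu]
  constructor <;> ring

lemma psi_far_ineq (hS : 8 ≤ S) {s : ℝ} (h : S ≤ s) :
    deriv (deriv (psi S)) s + deriv (psi S) s ≤ -(1 / (4 * (s * √s))) := by
  obtain ⟨e1, e2⟩ := psi_far hS h
  have hs0 : 0 < s := by linarith
  have := sqrt_pos.2 hs0
  rw [e1, e2]
  have e : 3 / (4 * s ^ 2 * √s) + -(1 / (2 * s * √s)) - -(1 / (4 * (s * √s))) =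
      (3 - s) / (4 * s ^ 2 * √s) := by
    field_simp
    ring
  have : (3 - s) / (4 * s ^ 2 * √s) ≤ 0 :=
    div_nonpos_of_nonpos_of_nonneg (by linarith) (by positivity)
  linarith

lemma RhoOK.S_ge (h : RhoOK κ j₀) : (8 : ℝ) ≤ (j₀ : ℝ) ^ 8 :=
  le_trans (by norm_num)
    (pow_le_pow_left₀ (by norm_num) (show (2 : ℝ) ≤ j₀ by exact_mod_cast h.2.1) 8)

lemma RhoOK.deriv_eq' (h : RhoOK κ j₀) :
    deriv (rho κ j₀) = fun s =>
      κ * deriv (psi ((j₀ : ℝ) ^ 8)) s + capCoef κ j₀ * deriv capPart s := by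
  funext s
  exact ((((contDiff_psi h.S_pos).differentiable (by simp) s).hasDerivAt.const_mul κ).const_add
    rhoInf |>.add ((hasDerivAt_capPart s).differentiableAt.hasDerivAt.const_mul _)).deriv

lemma RhoOK.deriv_deriv (h : RhoOK κ j₀) (s : ℝ) :
    deriv (deriv (rho κ j₀)) s =
      κ * deriv (deriv (psi ((j₀ : ℝ) ^ 8))) s + capCoef κ j₀ * deriv (deriv capPart) s := by
  rw [h.deriv_eq']
  exact ((((contDiff_infty_iff_deriv.1 (contDiff_psi h.S_pos)).2.differentiable (by simp)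
    s).hasDerivAt.const_mul κ).add
      ((capPart_second s).differentiableAt.hasDerivAt.const_mul _)).deriv

lemma RhoOK.ineq (h : RhoOK κ j₀) (s : ℝ) :
    deriv (deriv (rho κ j₀)) s + deriv (rho κ j₀) s ≤ 0 := by
  rw [h.deriv_deriv, h.deriv_eq']
  nlinarith [mul_le_mul_of_nonneg_left (psi_ineq h.S_ge s) h.1.le,
    mul_le_mul_of_nonneg_left (capPart_ineq s) h.2.2]

lemma RhoOK.ineq_far (h : RhoOK κ j₀) {s : ℝ} (hs : (j₀ : ℝ) ^ 8 ≤ s) :
    deriv (deriv (rho κ j₀)) s + deriv (rho κ j₀) s ≤ -(κ / (4 * (s * √s))) := by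
  rw [h.deriv_deriv, h.deriv_eq', div_eq_mul_one_div κ]
  nlinarith [mul_le_mul_of_nonneg_left (psi_far_ineq h.S_ge hs) h.1.le,
    mul_le_mul_of_nonneg_left (capPart_ineq s) h.2.2]

lemma RhoOK.add_deriv_nonneg (h : RhoOK κ j₀) (hj : 8 * κ ≤ rhoInf * (j₀ : ℝ) ^ 4) (s : ℝ) :
    0 ≤ rho κ j₀ s + deriv (rho κ j₀) s := by
  rw [h.deriv_eq', rho_eq]
  have hS0 := h.S_pos
  have hS := h.S_ge
  have key : 0 ≤ rhoInf + κ * deriv (psi ((j₀ : ℝ) ^ 8)) s := by
    rcases lt_or_ge s ((j₀ : ℝ) ^ 8 / 4) with hl | hl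
    · simp [(psi_eventually_const hS0 hl).deriv_eq, rhoInf_pos.le]
    have hs1 : 1 ≤ s := by linarith
    have hs0 : 0 < s := by linarith
    rw [(hasDerivAt_psi hS0 hs0).deriv]
    have hsq : 0 < √s := sqrt_pos.2 hs0
    have hj4 : 0 < (j₀ : ℝ) ^ 4 := by rw [← sqrt_pow8]; exact sqrt_pos.2 hS0
    have hle : (j₀ : ℝ) ^ 4 / 8 ≤ 2 * s * √s := by
      have h1 : (j₀ : ℝ) ^ 4 ≤ 2 * √s := by
        rw [← sqrt_pow8, show (2 : ℝ) * √s = √(4 * s) by
          rw [Real.sqrt_mul (by norm_num), show (4 : ℝ) = 2 ^ 2 by norm_num,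
            Real.sqrt_sq (by norm_num)]]
        exact sqrt_le_sqrt (by linarith)
      nlinarith
    have h2 : κ * (capD (√((j₀ : ℝ) ^ 8) / √s) / (2 * s * √s)) ≤ rhoInf := by
      refine le_trans (mul_le_mul_of_nonneg_left (div_le_div₀ zero_le_one (capD_le_one _)
        (by positivity) hle) h.1.le) ?_
      rw [mul_div, mul_one, div_le_iff₀ (by positivity)]
      linarith
    linarith [h2, (show κ * -(capD (√((j₀ : ℝ) ^ 8) / √s) / (2 * s * √s)) =
      -(κ * (capD (√((j₀ : ℝ) ^ 8) / √s) / (2 * s * √s))) by ring)]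
  nlinarith [mul_nonneg h.1.le (psi_nonneg hS0 s),
    mul_nonneg h.2.2 (capPart_add_deriv_nonneg s)]

lemma RhoOK.small_far (h : RhoOK κ j₀) {s : ℝ} (hs : (j₀ : ℝ) ^ 8 ≤ s) :
    rho κ j₀ s ≤ rhoInf + (2 * κ + 2) / (j₀ : ℝ) ^ 4 ∧
      |deriv (rho κ j₀) s| ≤ (2 * κ + 2) / (j₀ : ℝ) ^ 4 ∧
      |deriv (deriv (rho κ j₀)) s| ≤ (2 * κ + 2) / (j₀ : ℝ) ^ 4 := by
  have hS := h.S_ge
  have hs1 : 1 ≤ s := by linarith
  have hs0 : 0 < s := by linarith
  have hj : (1 : ℝ) ≤ j₀ := by exact_mod_cast (show 1 ≤ j₀ by have := h.2.1; omega)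
  have hj4 : 0 < (j₀ : ℝ) ^ 4 := by positivity
  have hs4 : (j₀ : ℝ) ^ 4 ≤ s := (pow_le_pow_right₀ hj (by norm_num)).trans hs
  have hex : exp (-s) ≤ 1 / (j₀ : ℝ) ^ 4 := by
    rw [exp_neg, one_div]
    exact inv_anti₀ hj4 (hs4.trans (by linarith [add_one_le_exp s]))
  have hsq : (j₀ : ℝ) ^ 4 ≤ √s := by rw [← sqrt_pow8]; exact sqrt_le_sqrt hs
  have hss : (j₀ : ℝ) ^ 4 ≤ s * √s := by nlinarith [sqrt_nonneg s]
  have hκ : κ / (s * √s) ≤ κ / (j₀ : ℝ) ^ 4 := div_le_div_of_nonneg_left h.1.le hj4 hss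
  refine ⟨?_, (h.abs_deriv_le hs0).trans ?_, ?_⟩
  · have := h.rho_sub_le s
    rw [add_div]
    rw [div_eq_mul_one_div (2 : ℝ)]
    linarith
  · rw [add_div, div_eq_mul_one_div (2 : ℝ)]
    have : 0 ≤ κ / (j₀ : ℝ) ^ 4 := div_nonneg h.1.le hj4.le
    rw [show 2 * κ / (j₀ : ℝ) ^ 4 = 2 * (κ / (j₀ : ℝ) ^ 4) by ring]
    linarith
  · rw [h.deriv_deriv, (psi_far hS hs).2, (capPart_second s).deriv]
    have hz : 2 * exp (-s) ≤ 1 := by
      have : exp (-s) ≤ exp (-1) := exp_le_exp.2 (by linarith)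
      have h2 : exp (-1 : ℝ) ≤ 1 / 2 := by
        rw [exp_neg, one_div]
        exact inv_anti₀ two_pos (by linarith [add_one_le_exp (1 : ℝ)])
      linarith
    rw [capD_of_le hz, deriv_capD_of_le hz, zero_mul, zero_add, one_mul]
    have hsq0 := sqrt_pos.2 hs0
    have e1 : 3 / (4 * s ^ 2 * √s) ≤ 1 / (s * √s) := by
      rw [div_le_div_iff₀ (by positivity) (by positivity)]
      nlinarith [mul_pos hs0 hsq0]
    have e2 : κ * (3 / (4 * s ^ 2 * √s)) ≤ κ / (j₀ : ℝ) ^ 4 := by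
      refine le_trans (mul_le_mul_of_nonneg_left e1 h.1.le) ?_
      rw [mul_one_div]
      exact hκ
    have e3 : 2 * exp (-s) / cap 2 ≤ 2 * exp (-s) :=
      div_le_self (by positivity) one_le_cap_two
    have e4 : capCoef κ j₀ * (2 * exp (-s) / cap 2) ≤ 2 * exp (-s) :=
      (mul_le_of_le_one_left (div_nonneg (by positivity) cap_two_pos.le) h.capCoef_le_one).trans e3
    have p1 : 0 ≤ κ * (3 / (4 * s ^ 2 * √s)) := mul_nonneg h.1.le (by positivity)
    have p2 : 0 ≤ capCoef κ j₀ * (2 * exp (-s) / cap 2) :=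
      mul_nonneg h.2.2 (div_nonneg (by positivity) cap_two_pos.le)
    rw [abs_of_nonneg (add_nonneg p1 p2), add_div, div_eq_mul_one_div (2 : ℝ)]
    have : 0 ≤ κ / (j₀ : ℝ) ^ 4 := div_nonneg h.1.le hj4.le
    rw [show 2 * κ / (j₀ : ℝ) ^ 4 = 2 * (κ / (j₀ : ℝ) ^ 4) by ring]
    linarith

end

end Vale.Agent.P225
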