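import Vale.Agent.P225.Profile.Switch
import Vale.Agent.P225.Profile.Rho

/-!
# P225: bounds for `theta` and its two derivatives
-/

namespace Vale.Agent.P225

open scoped ContDiff
open Filter Topology Real

noncomputable section

/-- A smooth function that is constant to the left of `0` and to the right of `1` has bounded first
and second derivatives. -/
lemma bounded_derivs {f : ℝ → ℝ} (hf : ContDiff ℝ ∞ f) {a b : ℝ} (h0 : ∀ x ≤ 0, f x = a)
    (h1 : ∀ x, 1 ≤ x → f x = b) :
    ∃ C, 0 ≤ C ∧ (∀ x, |deriv f x| ≤ C) ∧ ∀ x, |deriv (deriv f) x| ≤ C := by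
  have hd : ContDiff ℝ ∞ (deriv f) := (contDiff_infty_iff_deriv.1 hf).2
  obtain ⟨C₁, hC₁⟩ := (isCompact_Icc (a := (0 : ℝ)) (b := 1)).exists_bound_of_continuousOn
    hd.continuous.continuousOn
  obtain ⟨C₂, hC₂⟩ := (isCompact_Icc (a := (0 : ℝ)) (b := 1)).exists_bound_of_continuousOn
    (contDiff_infty_iff_deriv.1 hd).2.continuous.continuousOn
  have hout : ∀ x ∉ Set.Icc (0 : ℝ) 1, deriv f =ᶠ[𝓝 x] fun _ => 0 := by
    intro x hx
    rcases not_and_or.1 hx with h | h <;> push Not at h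
    · filter_upwards [eventually_lt_nhds h] with y hy
      have : f =ᶠ[𝓝 y] fun _ => a := by
        filter_upwards [eventually_lt_nhds hy] with z hz using h0 z hz.le
      simp [this.deriv_eq]
    · filter_upwards [eventually_gt_nhds h] with y hy
      have : f =ᶠ[𝓝 y] fun _ => b := by
        filter_upwards [eventually_gt_nhds hy] with z hz using h1 z hz.le
      simp [this.deriv_eq]
  refine ⟨max (max C₁ C₂) 0, le_max_right _ _, fun x => ?_, fun x => ?_⟩
  · by_cases hx : x ∈ Set.Icc (0 : ℝ) 1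
    · exact (hC₁ x hx).trans ((le_max_left _ _).trans (le_max_left _ _))
    · simp [(hout x hx).eq_of_nhds]
  · by_cases hx : x ∈ Set.Icc (0 : ℝ) 1
    · exact (hC₂ x hx).trans ((le_max_right _ _).trans (le_max_left _ _))
    · simp [(hout x hx).deriv_eq]

lemma exists_shape_bound : ∃ C, 1 ≤ C ∧ (∀ x, bump x ≤ C) ∧ (∀ x, |deriv bump x| ≤ C) ∧
    (∀ x, |deriv (deriv bump) x| ≤ C) ∧ (∀ x, |deriv smoothTransition x| ≤ C) ∧
    ∀ x, |deriv (deriv smoothTransition) x| ≤ C := by
  obtain ⟨C₀, -, h0⟩ := bump_bounded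
  obtain ⟨C₁, -, h1, h1'⟩ := bounded_derivs contDiff_bump (fun _ => bump_zero_left)
    (fun _ => bump_zero_right)
  obtain ⟨C₂, -, h2, h2'⟩ := bounded_derivs smoothTransition.contDiff
    (fun _ => smoothTransition.zero_of_nonpos) (fun _ => smoothTransition.one_of_one_le)
  refine ⟨max 1 (max C₀ (max C₁ C₂)), le_max_left _ _, fun x => (h0 x).trans ?_,
    fun x => (h1 x).trans ?_, fun x => (h1' x).trans ?_, fun x => (h2 x).trans ?_,
    fun x => (h2' x).trans ?_⟩ <;> simp

lemma hasDerivAt_affine_comp {f : ℝ → ℝ} (hf : Differentiable ℝ f) (c N u : ℝ) :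
    HasDerivAt (fun v => f ((v - c) / N)) (deriv f ((u - c) / N) * (1 / N)) u :=
  (hf _).hasDerivAt.comp u (((hasDerivAt_id u).sub_const c).div_const N)

lemma hasDerivAt_affine_comp' {f : ℝ → ℝ} (hf : Differentiable ℝ f) (c N u : ℝ) :
    HasDerivAt (fun v => f ((c - v) / N)) (deriv f ((c - u) / N) * (-1 / N)) u :=
  (hf _).hasDerivAt.comp u (((hasDerivAt_id u).const_sub c).div_const N)

variable {M j : ℕ} {T C : ℝ}

lemma abs_thetaPiece_derivs (hC1 : 1 ≤ C) (hb : ∀ x, |deriv bump x| ≤ C)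
    (hb' : ∀ x, |deriv (deriv bump) x| ≤ C) (hs : ∀ x, |deriv smoothTransition x| ≤ C)
    (hs' : ∀ x, |deriv (deriv smoothTransition) x| ≤ C) (hj : 1 ≤ j) (hT : 0 ≤ T)
    (τ : Fin M → ℝ) (hτ : ∀ k, |τ k| ≤ T) (u : ℝ) :
    |deriv (thetaPiece M j τ) u| ≤ ((M : ℝ) * T / unit' j + 2 * thetaStar) * C / unit' j ∧
      |deriv (deriv (thetaPiece M j τ)) u| ≤
        ((M : ℝ) * T + 4 * thetaStar) * C ^ 2 / unit' j := by
  have hN : 0 < unit' j := unit_pos hj
  have hN1 : 1 ≤ unit' j := one_le_pow₀ (by exact_mod_cast hj)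
  have hC : 0 ≤ C := zero_le_one.trans hC1
  have hsd : ContDiff ℝ ∞ smoothTransition := smoothTransition.contDiff
  have hbd : Differentiable ℝ bump := contDiff_bump.differentiable (by simp)
  have hbd' : Differentiable ℝ (deriv bump) :=
    (contDiff_infty_iff_deriv.1 contDiff_bump).2.differentiable (by simp)
  have hst : Differentiable ℝ smoothTransition := hsd.differentiable (by simp)
  have hst' : Differentiable ℝ (deriv smoothTransition) :=
    (contDiff_infty_iff_deriv.1 hsd).2.differentiable (by simp)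
  let N := unit' j
  let cc : Fin M → ℝ := fun i => (3 * (i : ℝ) + 1) * N
  let c₁ := (3 * (M : ℝ) + 1) * N
  let c₂ := plen j - N
  let d₁ : ℝ → ℝ := fun v =>
    (∑ i : Fin M, τ i / N * (deriv bump ((v - cc i) / N) * (1 / N))) +
      thetaStar * (deriv smoothTransition ((v - c₁) / N) * (1 / N) *
          smoothTransition ((c₂ - v) / N) +
        smoothTransition ((v - c₁) / N) * (deriv smoothTransition ((c₂ - v) / N) * (-1 / N)))
  have hpiece : thetaPiece M j τ = fun v =>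
      (∑ i : Fin M, τ i / N * bump ((v - cc i) / N)) +
        thetaStar * (smoothTransition ((v - c₁) / N) * smoothTransition ((c₂ - v) / N)) := by
    funext v
    rw [thetaPiece_eq]
    rfl
  have h1 : ∀ v, HasDerivAt (thetaPiece M j τ) (d₁ v) v := by
    intro v
    rw [hpiece]
    exact (HasDerivAt.fun_sum fun i _ =>
      (hasDerivAt_affine_comp hbd (cc i) N v).const_mul (τ i / N)).add
      (((hasDerivAt_affine_comp hst c₁ N v).mul
        (hasDerivAt_affine_comp' hst c₂ N v)).const_mul thetaStar)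
  have hst1 : ∀ x, |smoothTransition x| ≤ 1 := fun x => by
    rw [abs_of_nonneg (smoothTransition.nonneg x)]
    exact smoothTransition.le_one x
  have hsum : ∀ g : Fin M → ℝ, (∀ i, |g i| ≤ C) → ∀ D : ℝ, 0 ≤ D → ∀ w, |w| ≤ D →
      |∑ i : Fin M, τ i / N * (g i * w)| ≤ (M : ℝ) * (T / N * (C * D)) := by
    intro g hg D hD w hw
    refine (Finset.abs_sum_le_sum_abs _ _).trans ((Finset.sum_le_card_nsmul _ _
      (T / N * (C * D)) fun i _ => ?_).trans (by simp))
    rw [abs_mul, abs_mul, abs_div, abs_of_pos hN]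
    exact mul_le_mul (div_le_div_of_nonneg_right (hτ i) hN.le)
      (mul_le_mul (hg i) hw (abs_nonneg _) hC) (by positivity) (by positivity)
  have hts := thetaStar_pos.le
  constructor
  · rw [(h1 u).deriv]
    refine (abs_add_le _ _).trans ?_
    have e1 := hsum (fun i => deriv bump ((u - cc i) / N)) (fun i => hb _) (1 / N) (by positivity)
      (1 / N) (by rw [abs_of_pos (by positivity)])
    have e2 : |thetaStar * (deriv smoothTransition ((u - c₁) / N) * (1 / N) *
          smoothTransition ((c₂ - u) / N) +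
        smoothTransition ((u - c₁) / N) * (deriv smoothTransition ((c₂ - u) / N) * (-1 / N)))| ≤
        thetaStar * (C / N + C / N) := by
      rw [abs_mul, abs_of_nonneg hts]
      refine mul_le_mul_of_nonneg_left ((abs_add_le _ _).trans (add_le_add ?_ ?_)) hts
      · rw [abs_mul, abs_mul, abs_of_pos (show 0 < 1 / N by positivity), mul_one_div]
        exact (mul_le_of_le_one_right (by positivity) (hst1 _)).trans
          (div_le_div_of_nonneg_right (hs _) hN.le)
      · rw [abs_mul, abs_mul, abs_div, abs_neg, abs_one, abs_of_pos hN, mul_one_div]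
        exact (mul_le_of_le_one_left (by positivity) (hst1 _)).trans
          (div_le_div_of_nonneg_right (hs _) hN.le)
    refine (add_le_add e1 e2).trans (le_of_eq ?_)
    simp only [N]
    field_simp
    ring
  · have hd : deriv (thetaPiece M j τ) = d₁ := funext fun v => (h1 v).deriv
    rw [hd]
    have h2 : HasDerivAt d₁
        ((∑ i : Fin M, τ i / N * (deriv (deriv bump) ((u - cc i) / N) * (1 / N) * (1 / N))) +
          thetaStar * ((deriv (deriv smoothTransition) ((u - c₁) / N) * (1 / N) * (1 / N) *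
                smoothTransition ((c₂ - u) / N) +
              deriv smoothTransition ((u - c₁) / N) * (1 / N) *
                (deriv smoothTransition ((c₂ - u) / N) * (-1 / N))) +
            (deriv smoothTransition ((u - c₁) / N) * (1 / N) *
                (deriv smoothTransition ((c₂ - u) / N) * (-1 / N)) +
              smoothTransition ((u - c₁) / N) *
                (deriv (deriv smoothTransition) ((c₂ - u) / N) * (-1 / N) * (-1 / N))))) u :=
      (HasDerivAt.fun_sum fun i _ =>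
        ((hasDerivAt_affine_comp hbd' (cc i) N u).mul_const (1 / N)).const_mul (τ i / N)).add
      (((((hasDerivAt_affine_comp hst' c₁ N u).mul_const (1 / N)).mul
          (hasDerivAt_affine_comp' hst c₂ N u)).add
        ((hasDerivAt_affine_comp hst c₁ N u).mul
          ((hasDerivAt_affine_comp' hst' c₂ N u).mul_const (-1 / N)))).const_mul thetaStar)
    rw [h2.deriv]
    have hiv : |(1 : ℝ) / N| ≤ 1 := by
      rw [abs_of_pos (by positivity), div_le_one hN]
      exact hN1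
    have hiv' : |(-1 : ℝ) / N| = 1 / N := by rw [abs_div, abs_neg, abs_one, abs_of_pos hN]
    have hone : |(1 : ℝ) / N| = 1 / N := abs_of_pos (by positivity)
    have hw : |(1 : ℝ) / N * (1 / N)| ≤ 1 := by
      rw [abs_mul]
      exact mul_le_one₀ hiv (abs_nonneg _) hiv
    refine (abs_add_le _ _).trans ?_
    have e1 : |∑ i : Fin M, τ i / N * (deriv (deriv bump) ((u - cc i) / N) * (1 / N) * (1 / N))| ≤
        (M : ℝ) * (T / N * (C * 1)) := by
      simp only [mul_assoc (deriv (deriv bump) _)]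
      exact hsum _ (fun i => hb' _) 1 zero_le_one _ hw
    have hterm : ∀ a b w : ℝ, |a| ≤ C → |b| ≤ C → |w| ≤ 1 / N → |a * b * w| ≤ C ^ 2 / N := by
      intro a b w ha hb hw
      rw [abs_mul, abs_mul, sq, div_eq_mul_one_div]
      exact mul_le_mul (mul_le_mul ha hb (abs_nonneg _) hC) hw (abs_nonneg _) (by positivity)
    have hinv : ∀ a b : ℝ, |a| ≤ 1 / N → |b| ≤ 1 / N → |a * b| ≤ 1 / N := by
      intro a b ha hb
      rw [abs_mul]
      refine (mul_le_of_le_one_right (abs_nonneg _) (hb.trans ?_)).trans ha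
      rw [div_le_one hN]
      exact hN1
    have hone' : ∀ x, |smoothTransition x| ≤ C := fun x => (hst1 x).trans hC1
    have e2 : |thetaStar * ((deriv (deriv smoothTransition) ((u - c₁) / N) * (1 / N) * (1 / N) *
                smoothTransition ((c₂ - u) / N) +
              deriv smoothTransition ((u - c₁) / N) * (1 / N) *
                (deriv smoothTransition ((c₂ - u) / N) * (-1 / N))) +
            (deriv smoothTransition ((u - c₁) / N) * (1 / N) *
                (deriv smoothTransition ((c₂ - u) / N) * (-1 / N)) +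
              smoothTransition ((u - c₁) / N) *
                (deriv (deriv smoothTransition) ((c₂ - u) / N) * (-1 / N) * (-1 / N))))| ≤
        thetaStar * ((C ^ 2 / N + C ^ 2 / N) + (C ^ 2 / N + C ^ 2 / N)) := by
      rw [abs_mul, abs_of_nonneg hts]
      have p1 := hinv _ _ hone.le hone.le
      have p2 := hinv _ _ hone.le hiv'.le
      have p3 := hinv _ _ hiv'.le hiv'.le
      refine mul_le_mul_of_nonneg_left ((abs_add_le _ _).trans (add_le_add
        ((abs_add_le _ _).trans (add_le_add ?_ ?_))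
        ((abs_add_le _ _).trans (add_le_add ?_ ?_)))) hts
      · refine le_trans (le_of_eq ?_) (hterm _ _ _ (hs' ((u - c₁) / N))
          (hone' ((c₂ - u) / N)) p1)
        congr 1; ring
      · refine le_trans (le_of_eq ?_) (hterm _ _ _ (hs ((u - c₁) / N)) (hs ((c₂ - u) / N)) p2)
        congr 1; ring
      · refine le_trans (le_of_eq ?_) (hterm _ _ _ (hs ((u - c₁) / N)) (hs ((c₂ - u) / N)) p2)
        congr 1; ring
      · refine le_trans (le_of_eq ?_) (hterm _ _ _ (hone' ((u - c₁) / N))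
          (hs' ((c₂ - u) / N)) p3)
        congr 1; ring
    refine (add_le_add e1 e2).trans ?_
    have hCC : C ≤ C ^ 2 := by nlinarith
    have : (M : ℝ) * (T / N * (C * 1)) ≤ (M : ℝ) * T * C ^ 2 / N := by
      rw [mul_one, div_mul_eq_mul_div, ← mul_div_assoc, mul_assoc (M : ℝ) T]
      gcongr
    refine (add_le_add this le_rfl).trans (le_of_eq ?_)
    simp only [N]
    ring

lemma thetaPiece_range (hC : ∀ x, bump x ≤ C) (hj : 1 ≤ j) (τ : Fin M → ℝ)
    (hτ : ∀ k, |τ k| ≤ T) (hT : 0 ≤ T) (u : ℝ) :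
    -((M : ℝ) * T * C / unit' j) ≤ thetaPiece M j τ u ∧
      thetaPiece M j τ u ≤ thetaStar + (M : ℝ) * T * C / unit' j := by
  have hN : 0 < unit' j := unit_pos hj
  have hs : |∑ i : Fin M, τ i / unit' j * bump ((u - (3 * (i : ℝ) + 1) * unit' j) / unit' j)| ≤
      (M : ℝ) * T * C / unit' j := by
    refine (Finset.abs_sum_le_sum_abs _ _).trans ((Finset.sum_le_card_nsmul _ _
      (T * C / unit' j) fun i _ => ?_).trans (by simp; ring_nf; rfl))
    rw [abs_mul, abs_div, abs_of_pos hN, abs_of_nonneg (bump_nonneg _), div_mul_eq_mul_div]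
    exact div_le_div_of_nonneg_right (mul_le_mul (hτ i) (hC _) (bump_nonneg _) hT) hN.le
  obtain ⟨p0, p1⟩ := plateau_mem (M := M) (j := j) u
  rw [thetaPiece_eq]
  have := thetaStar_pos
  obtain ⟨s0, s1⟩ := abs_le.1 hs
  constructor <;> nlinarith

/-- `theta` and its first two derivatives. -/
lemma theta_bounds : ∃ K, 0 ≤ K ∧ ∀ (M : ℕ) (T : ℝ), 0 ≤ T → ∃ K', 0 ≤ K' ∧ ∀ j₀ : ℕ,
    3 * M + 4 ≤ j₀ → (M : ℝ) * T ≤ (j₀ : ℝ) → ∀ τ : ℕ → Fin M → ℝ, (∀ j k, |τ j k| ≤ T) →
    ∀ s, (s < (j₀ : ℝ) ^ 8 → deriv (theta M j₀ τ) s = 0 ∧ deriv (deriv (theta M j₀ τ)) s = 0) ∧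
      (-(K' / (j₀ : ℝ) ^ 4) ≤ theta M j₀ τ s ∧ theta M j₀ τ s ≤ thetaStar + K' / (j₀ : ℝ) ^ 4) ∧
      |deriv (theta M j₀ τ) s| ≤ K' / (j₀ : ℝ) ^ 4 ∧
      |deriv (deriv (theta M j₀ τ)) s| ≤ K' / (j₀ : ℝ) ^ 4 ∧
      ((j₀ : ℝ) ^ 8 ≤ s → deriv (theta M j₀ τ) s ^ 2 * (s * √s) ≤ K) := by
  obtain ⟨C, hC1, hb0, hb, hb', hs, hs'⟩ := exists_shape_bound
  have hts := thetaStar_pos
  refine ⟨4096 * ((1 + 2 * thetaStar) * C) ^ 2, by positivity, fun M T hT =>
    ⟨(1 + 2 * thetaStar) * C + ((M : ℝ) * T + 4 * thetaStar) * C ^ 2 + (M : ℝ) * T * C,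
      by positivity, fun j₀ hM hMT τ hτ s => ?_⟩⟩
  set K' := (1 + 2 * thetaStar) * C + ((M : ℝ) * T + 4 * thetaStar) * C ^ 2 + (M : ℝ) * T * C
    with hK'
  have hC : (0 : ℝ) ≤ C := zero_le_one.trans hC1
  have hj0 : (1 : ℝ) ≤ j₀ := by exact_mod_cast (show 1 ≤ j₀ by omega)
  have hJ4 : (0 : ℝ) < (j₀ : ℝ) ^ 4 := by positivity
  have hK0 : 0 ≤ K' / (j₀ : ℝ) ^ 4 := by positivity
  have hlow : s < (j₀ : ℝ) ^ 8 →
      deriv (theta M j₀ τ) s = 0 ∧ deriv (deriv (theta M j₀ τ)) s = 0 := by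
    intro h
    have e : theta M j₀ τ =ᶠ[𝓝 s] fun _ => 0 := by
      filter_upwards [eventually_lt_nhds h] with t ht using theta_of_lt ht
    exact ⟨by simp [e.deriv_eq], by simp [e.deriv.deriv_eq]⟩
  refine ⟨hlow, ?_⟩
  rcases theta_eventually hM τ s with h | ⟨j, hj, h1, h2, h⟩
  · have d1 : deriv (theta M j₀ τ) s = 0 := by simp [h.deriv_eq]
    have d2 : deriv (deriv (theta M j₀ τ)) s = 0 := by simp [h.deriv.deriv_eq]
    rw [d1, d2, h.eq_of_nhds, abs_zero]
    refine ⟨⟨by linarith, by linarith⟩, hK0, hK0, fun _ => ?_⟩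
    rw [zero_pow two_ne_zero, zero_mul]
    positivity
  have hj1 : 1 ≤ j := by omega
  have d1 : deriv (theta M j₀ τ) s = deriv (thetaPiece M j (τ j)) (s - (j : ℝ) ^ 8) := by
    rw [h.deriv_eq, deriv_comp_sub_const]
  have d2 : deriv (deriv (theta M j₀ τ)) s =
      deriv (deriv (thetaPiece M j (τ j))) (s - (j : ℝ) ^ 8) := by
    rw [h.deriv.deriv_eq]
    have e : deriv (fun t => thetaPiece M j (τ j) (t - (j : ℝ) ^ 8)) =
        fun t => deriv (thetaPiece M j (τ j)) (t - (j : ℝ) ^ 8) :=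
      funext fun t => deriv_comp_sub_const ..
    rw [e, deriv_comp_sub_const]
  rw [d1, d2, h.eq_of_nhds]
  obtain ⟨b1, b2⟩ := abs_thetaPiece_derivs hC1 hb hb' hs hs' hj1 hT (τ j) (hτ j) (s - (j : ℝ) ^ 8)
  obtain ⟨r1, r2⟩ := thetaPiece_range hb0 hj1 (τ j) (hτ j) hT (s - (j : ℝ) ^ 8)
  have hjr : (j₀ : ℝ) ≤ j := by exact_mod_cast hj
  have hN : 0 < unit' j := unit_pos hj1
  have hNj : (j₀ : ℝ) ≤ unit' j := hjr.trans (le_self_pow₀ (hj0.trans hjr) (by norm_num))
  have hN4 : (j₀ : ℝ) ^ 4 ≤ unit' j :=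
    (pow_le_pow_left₀ (by linarith) hjr 4).trans (pow_le_pow_right₀ (hj0.trans hjr) (by norm_num))
  have hq : (M : ℝ) * T / unit' j ≤ 1 := (div_le_one hN).2 (hMT.trans hNj)
  have hb1 : |deriv (thetaPiece M j (τ j)) (s - (j : ℝ) ^ 8)| ≤
      (1 + 2 * thetaStar) * C / unit' j :=
    b1.trans (div_le_div_of_nonneg_right (mul_le_mul_of_nonneg_right (by linarith) hC) hN.le)
  have hle : ∀ a : ℝ, 0 ≤ a → a ≤ K' → a / unit' j ≤ K' / (j₀ : ℝ) ^ 4 := fun a ha haK =>
    div_le_div₀ (ha.trans haK) haK hJ4 hN4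
  have p1 : 0 ≤ (1 + 2 * thetaStar) * C := by positivity
  have p2 : 0 ≤ ((M : ℝ) * T + 4 * thetaStar) * C ^ 2 := by positivity
  have p3 : 0 ≤ (M : ℝ) * T * C := by positivity
  refine ⟨⟨?_, ?_⟩, hb1.trans (hle _ p1 (by linarith)), b2.trans (hle _ p2 (by linarith)),
    fun hs0 => ?_⟩
  · linarith [hle _ p3 (show (M : ℝ) * T * C ≤ K' by linarith)]
  · linarith [hle _ p3 (show (M : ℝ) * T * C ≤ K' by linarith)]
  · have hs1 : 0 ≤ s := le_trans (by positivity) hs0
    have hj2 : (j : ℝ) + 1 ≤ 2 * j := by linarith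
    have hup : s ≤ 256 * (j : ℝ) ^ 8 := by
      calc s ≤ ((j : ℝ) + 1) ^ 8 := h2.le
        _ ≤ (2 * (j : ℝ)) ^ 8 := pow_le_pow_left₀ (by positivity) hj2 8
        _ = 256 * (j : ℝ) ^ 8 := by ring
    have hsq : √s ≤ 16 * (j : ℝ) ^ 4 := by
      rw [show 16 * (j : ℝ) ^ 4 = √(256 * (j : ℝ) ^ 8) by
        rw [show 256 * (j : ℝ) ^ 8 = (16 * (j : ℝ) ^ 4) ^ 2 by ring,
          Real.sqrt_sq (by positivity)]]
      exact Real.sqrt_le_sqrt hup
    have hd : deriv (thetaPiece M j (τ j)) (s - (j : ℝ) ^ 8) ^ 2 ≤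
        ((1 + 2 * thetaStar) * C / unit' j) ^ 2 :=
      sq_le_sq' (abs_le.1 hb1).1 (abs_le.1 hb1).2
    calc _ ≤ ((1 + 2 * thetaStar) * C / unit' j) ^ 2 * (256 * (j : ℝ) ^ 8 * (16 * (j : ℝ) ^ 4)) :=
          mul_le_mul hd (mul_le_mul hup hsq (sqrt_nonneg _) (by positivity))
            (mul_nonneg hs1 (sqrt_nonneg _)) (sq_nonneg _)
      _ = 4096 * ((1 + 2 * thetaStar) * C) ^ 2 := by
          rw [unit']
          field_simp
          ring

end

end Vale.Agent.P225
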