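import Vale.Agent.P225.Interfaces
import Vale.Agent.P225.Profile.ThetaBounds
import Vale.Agent.P225.Profile.RhoSecond

/-!
# P225: the profiles have nonnegative Ricci curvature
-/

namespace Vale.Agent.P225

open scoped ContDiff
open Filter Topology Real

noncomputable section

lemma p₀_cast : ((p₀ : ℕ) : ℝ) = 14 := by norm_num [p₀]

/-- Derivatives of `f e^(c g)`. -/
lemma twisted_derivs {f g : ℝ → ℝ} (hf : ContDiff ℝ ∞ f) (hg : ContDiff ℝ ∞ g) (c s : ℝ) :
    deriv (fun t => f t * exp (c * g t)) s = (deriv f s + c * f s * deriv g s) * exp (c * g s) ∧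
      deriv (deriv fun t => f t * exp (c * g t)) s =
        (deriv (deriv f) s + 2 * c * deriv f s * deriv g s + c * f s * deriv (deriv g) s +
          c ^ 2 * f s * deriv g s ^ 2) * exp (c * g s) := by
  have df : ∀ t, HasDerivAt f (deriv f t) t := fun t => (hf.differentiable (by simp) t).hasDerivAt
  have dg : ∀ t, HasDerivAt g (deriv g t) t := fun t => (hg.differentiable (by simp) t).hasDerivAt
  have df' : HasDerivAt (deriv f) (deriv (deriv f) s) s :=
    ((contDiff_infty_iff_deriv.1 hf).2.differentiable (by simp) s).hasDerivAt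
  have dg' : HasDerivAt (deriv g) (deriv (deriv g) s) s :=
    ((contDiff_infty_iff_deriv.1 hg).2.differentiable (by simp) s).hasDerivAt
  have d1 : ∀ t, HasDerivAt (fun t => f t * exp (c * g t))
      ((deriv f t + c * f t * deriv g t) * exp (c * g t)) t := fun t =>
    ((df t).mul ((dg t).const_mul c).exp).congr_deriv (by ring)
  refine ⟨(d1 s).deriv, ?_⟩
  rw [funext fun t => (d1 t).deriv]
  refine ((df'.add ((((df s).const_mul c).mul dg'))).mul
    ((dg s).const_mul c).exp).congr_deriv ?_ |>.deriv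
  simp only [Pi.add_apply, Pi.mul_apply]
  ring

variable {ρ θ : ℝ → ℝ}

lemma profB_eq : profB ρ θ = fun t => ρ t * exp (-1 * θ t) := by
  funext t
  simp [profB]

lemma profA_eq : profA ρ θ = fun t => ρ t * exp (28 * θ t) := by
  funext t
  rw [profA, p₀_cast]
  norm_num

/-- The three eigenvalues in terms of `ρ` and `θ`. -/
lemma ric_formulas (hρ : ContDiff ℝ ∞ ρ) (hθ : ContDiff ℝ ∞ θ) (s : ℝ) (h0 : ρ s ≠ 0) :
    let r := deriv ρ s / ρ s
    let e := (deriv (deriv ρ) s + deriv ρ s) / ρ s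
    let t := deriv θ s
    let t2 := deriv (deriv θ) s
    ricRad p₀ (profA ρ θ) (profB ρ θ) s = -29 * e - 812 * t ^ 2 ∧
      ricFib p₀ (profA ρ θ) (profB ρ θ) s =
        -(e + 56 * r * t + 28 * t2 + 784 * t ^ 2 + 28 * t)
          - 28 * ((1 + r + 28 * t) * (1 + r - t)) + 28 * exp (60 * θ s) / ρ s ^ 2 ∧
      ricBase p₀ (profA ρ θ) (profB ρ θ) s =
        -(e - 2 * r * t - t2 + t ^ 2 - t) - (1 + r + 28 * t) * (1 + r - t)
          - 27 * (1 + r - t) ^ 2
          + 2 * exp (2 * θ s) * (15 - exp (58 * θ s)) / ρ s ^ 2 := by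
  intro r e t t2
  obtain ⟨a1, a2⟩ := twisted_derivs hρ hθ 28 s
  obtain ⟨b1, b2⟩ := twisted_derivs hρ hθ (-1) s
  set EA := exp (28 * θ s) with hEA
  set EB := exp (-1 * θ s) with hEB
  have hA0 : EA ≠ 0 := (exp_pos _).ne'
  have hB0 : EB ≠ 0 := (exp_pos _).ne'
  have h60 : exp (60 * θ s) = EA ^ 2 / EB ^ 4 := by
    rw [hEA, hEB, ← exp_nat_mul, ← exp_nat_mul, ← exp_sub]
    norm_num
    ring
  have h58 : exp (58 * θ s) = EA ^ 2 / EB ^ 2 := by
    rw [hEA, hEB, ← exp_nat_mul, ← exp_nat_mul, ← exp_sub]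
    norm_num
    ring
  have h2 : exp (2 * θ s) = 1 / EB ^ 2 := by
    rw [hEB, ← exp_nat_mul, one_div, ← exp_neg]
    norm_num
  simp only [ricRad, ricFib, ricBase, profA_eq, profB_eq, a1, a2, b1, b2, p₀_cast, ← hEA, ← hEB,
    h60, h58, h2, r, e, t, t2]
  refine ⟨?_, ?_, ?_⟩
  all_goals
    field_simp
    ring

/-- The margins at a small error `δ`. -/
def fibMargin (δ : ℝ) : ℝ :=
  -(58 * δ + 840 * δ ^ 2) - 28 * ((1 + 29 * δ) * (1 + 2 * δ)) +
    28 * exp (-60 * δ) / (rhoInf + δ) ^ 2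

/-- The radius of the base margin. -/
def baseFun (δ x : ℝ) : ℝ :=
  (14 + (4 * δ + 3 * δ ^ 2 + ((1 + 29 * δ) * (1 + 2 * δ) - 1) + 27 * ((1 + 2 * δ) ^ 2 - 1)) / 2) *
    (rhoInf + δ) ^ 2 * exp (-2 * x) + exp (58 * x)

lemma margins : ∃ δ : ℝ, 0 < δ ∧ δ ≤ 1 / 100 ∧ 0 < fibMargin δ ∧ baseFun δ (-δ) < 15 ∧
    baseFun δ (thetaStar + δ) < 15 := by
  have hr := rhoInf_pos
  have hlt := rhoInf_lt_one
  have hsq1 : rhoInf ^ 2 < 1 := by nlinarith
  have hne : (rhoInf + 0) ^ 2 ≠ 0 := by positivity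
  have c1 : ContinuousAt fibMargin 0 := by unfold fibMargin; fun_prop (disch := exact hne)
  have c2 : ContinuousAt (fun δ => baseFun δ (-δ)) 0 := by unfold baseFun; fun_prop
  have c3 : ContinuousAt (fun δ => baseFun δ (thetaStar + δ)) 0 := by unfold baseFun; fun_prop
  have f1 : 0 < fibMargin 0 := by
    simp only [fibMargin, mul_zero, zero_pow two_ne_zero, exp_zero, add_zero]
    have : 28 < 28 * 1 / rhoInf ^ 2 := by rw [lt_div_iff₀ (by positivity)]; linarith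
    linarith
  have f2 : baseFun 0 (-0) < 15 := by
    simp only [baseFun, mul_zero, zero_pow two_ne_zero, add_zero, neg_zero, exp_zero]
    norm_num
    linarith
  have f3 : baseFun 0 (thetaStar + 0) < 15 := by
    simp only [baseFun, mul_zero, zero_pow two_ne_zero, add_zero, exp_two_m_thetaStar, rhoInf_sq]
    have : r2Inf * exp (2 * thetaStar) * exp (-2 * thetaStar) = r2Inf := by
      rw [mul_assoc, ← exp_add]
      simp
    norm_num [r2Inf] at this ⊢
    nlinarith [this]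
  have hev : ∀ᶠ δ in 𝓝 (0 : ℝ), 0 < fibMargin δ ∧ baseFun δ (-δ) < 15 ∧
      baseFun δ (thetaStar + δ) < 15 :=
    (c1.eventually (eventually_gt_nhds f1)).and
      ((c2.eventually (eventually_lt_nhds f2)).and (c3.eventually (eventually_lt_nhds f3)))
  obtain ⟨ε, hε, h⟩ := Metric.eventually_nhds_iff.1 hev
  refine ⟨min (ε / 2) (1 / 100), by positivity, min_le_right _ _, h ?_⟩
  rw [Real.dist_eq, sub_zero, abs_of_pos (by positivity)]
  exact lt_of_le_of_lt (min_le_left _ _) (half_lt_self hε)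

/-- Convexity: the base function is at most its values at the ends. -/
lemma baseFun_le {δ x : ℝ} (hδ : 0 ≤ δ) (h1 : -δ ≤ x) (h2 : x ≤ thetaStar + δ)
    (e1 : baseFun δ (-δ) < 15) (e2 : baseFun δ (thetaStar + δ) < 15) : baseFun δ x < 15 := by
  have hw : 0 ≤ (14 + (4 * δ + 3 * δ ^ 2 + ((1 + 29 * δ) * (1 + 2 * δ) - 1) +
      27 * ((1 + 2 * δ) ^ 2 - 1)) / 2) * (rhoInf + δ) ^ 2 := by
    refine mul_nonneg ?_ (sq_nonneg _)
    nlinarith
  have hlin : ∀ a : ℝ, ConvexOn ℝ Set.univ fun y => exp (a * y) := fun a => by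
    have := convexOn_exp.comp_linearMap (LinearMap.mulLeft ℝ a)
    simpa [Function.comp_def] using this
  have hconv : ConvexOn ℝ Set.univ (baseFun δ) := ((hlin (-2)).smul hw).add (hlin 58)
  exact lt_of_le_of_lt (hconv.le_max_of_mem_Icc (Set.mem_univ _) (Set.mem_univ _) ⟨h1, h2⟩)
    (max_lt e1 e2)

/-- Far out the fibre and base eigenvalues are nonnegative. -/
lemma ric_far {δ : ℝ} (hδ : 0 < δ) (hF : 0 < fibMargin δ) (hB1 : baseFun δ (-δ) < 15)
    (hB2 : baseFun δ (thetaStar + δ) < 15) {v r e t t2 x : ℝ} (hρ0 : rhoInf ≤ v)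
    (hρ : v ≤ rhoInf + δ) (hx1 : -δ ≤ x) (hx2 : x ≤ thetaStar + δ) (hr : |r| ≤ δ)
    (he : e ≤ 0) (ht : |t| ≤ δ) (ht2 : |t2| ≤ δ) :
    0 ≤ -(e + 56 * r * t + 28 * t2 + 784 * t ^ 2 + 28 * t)
          - 28 * ((1 + r + 28 * t) * (1 + r - t)) + 28 * exp (60 * x) / v ^ 2 ∧
      0 ≤ -(e - 2 * r * t - t2 + t ^ 2 - t) - (1 + r + 28 * t) * (1 + r - t)
          - 27 * (1 + r - t) ^ 2 + 2 * exp (2 * x) * (15 - exp (58 * x)) / v ^ 2 := by
  have hr0 := rhoInf_pos
  have hv : 0 < v := hr0.trans_le hρ0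
  obtain ⟨r1, r2⟩ := abs_le.1 hr
  obtain ⟨t1, t1'⟩ := abs_le.1 ht
  obtain ⟨u1, u2⟩ := abs_le.1 ht2
  have hrt : |r * t| ≤ δ * δ := by rw [abs_mul]; exact mul_le_mul hr ht (abs_nonneg _) hδ.le
  obtain ⟨rt1, rt2⟩ := abs_le.1 hrt
  have ht22 : t ^ 2 ≤ δ * δ := by nlinarith
  have hP : (1 + r + 28 * t) * (1 + r - t) ≤ (1 + 29 * δ) * (1 + 2 * δ) := by
    refine (le_abs_self _).trans ?_
    rw [abs_mul]
    refine mul_le_mul ?_ ?_ (abs_nonneg _) (by positivity)
    · rw [abs_le]; constructor <;> linarith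
    · rw [abs_le]; constructor <;> linarith
  have hQ : (1 + r - t) ^ 2 ≤ (1 + 2 * δ) ^ 2 :=
    sq_le_sq' (by linarith) (by linarith)
  constructor
  · have : 28 * exp (-60 * δ) / (rhoInf + δ) ^ 2 ≤ 28 * exp (60 * x) / v ^ 2 :=
      div_le_div₀ (by positivity) (mul_le_mul_of_nonneg_left (exp_le_exp.2 (by linarith))
        (by norm_num)) (by positivity) (pow_le_pow_left₀ hv.le hρ 2)
    rw [fibMargin] at hF
    nlinarith
  · have hb := baseFun_le hδ.le hx1 hx2 hB1 hB2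
    rw [baseFun] at hb
    set W := 14 + (4 * δ + 3 * δ ^ 2 + ((1 + 29 * δ) * (1 + 2 * δ) - 1) +
      27 * ((1 + 2 * δ) ^ 2 - 1)) / 2 with hW
    have hW0 : 0 ≤ W := by nlinarith
    have h15 : W * v ^ 2 * exp (-2 * x) ≤ 15 - exp (58 * x) := by
      have : W * v ^ 2 * exp (-2 * x) ≤ W * (rhoInf + δ) ^ 2 * exp (-2 * x) := by gcongr
      linarith
    have : 2 * W ≤ 2 * exp (2 * x) * (15 - exp (58 * x)) / v ^ 2 := by
      rw [le_div_iff₀ (by positivity)]
      have := mul_le_mul_of_nonneg_left h15 (by positivity : 0 ≤ 2 * exp (2 * x))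
      have e' : exp (2 * x) * exp (-2 * x) = 1 := by rw [← exp_add]; simp
      calc 2 * W * v ^ 2 = 2 * W * v ^ 2 * (exp (2 * x) * exp (-2 * x)) := by rw [e', mul_one]
        _ = 2 * exp (2 * x) * (W * v ^ 2 * exp (-2 * x)) := by ring
        _ ≤ _ := this
    rw [hW] at this
    nlinarith

/-- Before the first checkpoint the fibre and base eigenvalues are nonnegative. -/
lemma ric_near {v a e : ℝ} (hv : 0 < v) (hv1 : 0 ≤ v + a) (ha : a ≤ 0) (hv2 : v ≤ 1)
    (he : e ≤ 0) :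
    0 ≤ -(e / v) - 28 * (1 + a / v) ^ 2 + 28 / v ^ 2 := by
  have h1 : (v + a) ^ 2 ≤ 1 := by nlinarith
  have h2 : 28 * (1 + a / v) ^ 2 ≤ 28 / v ^ 2 := by
    rw [show 28 * (1 + a / v) ^ 2 = 28 * (v + a) ^ 2 / v ^ 2 by field_simp]
    exact div_le_div_of_nonneg_right (by linarith) (sq_nonneg v)
  have h3 : e / v ≤ 0 := div_nonpos_of_nonpos_of_nonneg he hv.le
  linarith

/-- **Profiles.** -/
theorem profile_ok : ProfileStmt := by
  obtain ⟨K, hK0, hθ⟩ := theta_bounds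
  obtain ⟨δ, hδ, hδ1, hF, hB1, hB2⟩ := margins
  refine ⟨112 * K + 1, by positivity, fun M T => ?_⟩
  set κ := 112 * K + 1 with hκ
  have hκ0 : 0 < κ := by positivity
  obtain ⟨K', hK', hθ'⟩ := hθ M (max T 0) (le_max_right _ _)
  have hr0 := rhoInf_pos
  have hlim : ∀ c : ℝ, Tendsto (fun j : ℕ => c / (j : ℝ) ^ 4) atTop (𝓝 0) := fun c =>
    ((tendsto_pow_atTop (by norm_num)).comp tendsto_natCast_atTop_atTop).const_div_atTop c
  filter_upwards [eventually_rhoOK hκ0, eventually_ge_atTop (3 * M + 4),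
    tendsto_natCast_atTop_atTop.eventually (eventually_ge_atTop ((M : ℝ) * max T 0)),
    (hlim (8 * κ)).eventually (eventually_le_nhds hr0),
    (hlim K').eventually (eventually_le_nhds hδ),
    (hlim ((2 * κ + 2) / rhoInf)).eventually (eventually_le_nhds hδ)]
    with j₀ hOK hM hMT h8 hKd hRd
  intro τ hτ
  have hj0 : (1 : ℝ) ≤ j₀ := by exact_mod_cast (show 1 ≤ j₀ by omega)
  have hj4 : 0 < (j₀ : ℝ) ^ 4 := by positivity
  have h8' : 8 * κ ≤ rhoInf * (j₀ : ℝ) ^ 4 := (div_le_iff₀ hj4).1 h8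
  have hb := hθ' j₀ hM hMT τ fun j k => (hτ j k).trans (le_max_left _ _)
  have hθd : ContDiff ℝ ∞ (theta M j₀ τ) := contDiff_theta hM τ
  have hts := thetaStar_le
  have hts0 := thetaStar_pos
  refine ⟨hOK.contDiff, hθd, fun s hs => ⟨hOK.rho_nonpos hs,
    theta_of_lt (lt_of_le_of_lt hs hOK.S_pos)⟩, fun s => ⟨hOK.rhoInf_le s, hOK.rho_le_one s, ?_⟩,
    switch_or_zero hM τ, fun s => ?_⟩
  · obtain ⟨-, ⟨h1, h2⟩, -⟩ := hb s
    rw [abs_le]
    constructor <;> linarith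
  have hv := hOK.rho_pos s
  obtain ⟨hlow, ⟨hx1, hx2⟩, ht, ht2, hsq⟩ := hb s
  obtain ⟨f1, f2, f3⟩ := ric_formulas hOK.contDiff hθd s hv.ne'
  rw [f1, f2, f3]
  have he := hOK.ineq s
  rcases lt_or_ge s ((j₀ : ℝ) ^ 8) with hs | hs
  · obtain ⟨d1, d2⟩ := hlow hs
    rw [d1, d2, theta_of_lt hs]
    have hnear := ric_near hv (hOK.add_deriv_nonneg h8' s) (hOK.deriv_nonpos s)
      (hOK.rho_le_one s) he
    have h3 : (deriv (deriv (rho κ j₀)) s + deriv (rho κ j₀) s) / rho κ j₀ s ≤ 0 :=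
      div_nonpos_of_nonpos_of_nonneg he hv.le
    simp only [mul_zero, add_zero, sub_zero, zero_pow two_ne_zero, exp_zero]
    refine ⟨by linarith, ?_, ?_⟩
    · refine hnear.trans (le_of_eq ?_); ring
    · refine hnear.trans (le_of_eq ?_); ring
  · obtain ⟨s1, s2, s3⟩ := hOK.small_far hs
    have hr1 := rhoInf_lt_one
    have hK1 : K' / (j₀ : ℝ) ^ 4 ≤ δ := hKd
    have hR : (2 * κ + 2) / (j₀ : ℝ) ^ 4 ≤ δ * rhoInf := by
      rw [div_div, mul_comm rhoInf, ← div_div, div_le_iff₀ hr0] at hRd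
      exact hRd
    have hR' : (2 * κ + 2) / (j₀ : ℝ) ^ 4 ≤ δ :=
      hR.trans (mul_le_of_le_one_right hδ.le hr1.le)
    have hrad : deriv (deriv (rho κ j₀)) s + deriv (rho κ j₀) s +
        28 * deriv (theta M j₀ τ) s ^ 2 * rho κ j₀ s ≤ 0 := by
      have hs0 : 0 < s := lt_of_lt_of_le hOK.S_pos hs
      have hss : 0 < s * √s := mul_pos hs0 (sqrt_pos.2 hs0)
      have h1 := hOK.ineq_far hs
      have h2 : 28 * deriv (theta M j₀ τ) s ^ 2 * rho κ j₀ s ≤ κ / (4 * (s * √s)) := by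
        rw [le_div_iff₀ (by positivity)]
        have h3 := hsq hs
        have h4 : deriv (theta M j₀ τ) s ^ 2 * rho κ j₀ s ≤ deriv (theta M j₀ τ) s ^ 2 :=
          mul_le_of_le_one_right (sq_nonneg _) (hOK.rho_le_one s)
        nlinarith [mul_le_mul_of_nonneg_right h4 hss.le]
      linarith
    have hq : |deriv (rho κ j₀) s / rho κ j₀ s| ≤ δ := by
      rw [abs_div, abs_of_pos hv, div_le_iff₀ hv]
      exact s2.trans (hR.trans (mul_le_mul_of_nonneg_left (hOK.rhoInf_le s) hδ.le))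
    obtain ⟨g1, g2⟩ := ric_far hδ hF hB1 hB2 (e := (deriv (deriv (rho κ j₀)) s +
        deriv (rho κ j₀) s) / rho κ j₀ s) (hOK.rhoInf_le s) (s1.trans (by linarith))
      (show -δ ≤ theta M j₀ τ s by linarith) (show theta M j₀ τ s ≤ thetaStar + δ by linarith)
      hq (div_nonpos_of_nonpos_of_nonneg he hv.le) (ht.trans hK1) (ht2.trans hK1)
    refine ⟨?_, g1, g2⟩
    have : -29 * ((deriv (deriv (rho κ j₀)) s + deriv (rho κ j₀) s) / rho κ j₀ s) -
        812 * deriv (theta M j₀ τ) s ^ 2 = -29 * ((deriv (deriv (rho κ j₀)) s +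
          deriv (rho κ j₀) s + 28 * deriv (theta M j₀ τ) s ^ 2 * rho κ j₀ s) / rho κ j₀ s) := by
      field_simp
      ring
    rw [this]
    exact mul_nonneg_of_nonpos_of_nonpos (by norm_num)
      (div_nonpos_of_nonpos_of_nonneg hrad hv.le)

end

end Vale.Agent.P225
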