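import Vale.Agent.P225.Defs

/-!
# P225: the concave cap and the volume radius `rho`
-/

namespace Vale.Agent.P225

open scoped ContDiff
open Filter Topology Real MeasureTheory

noncomputable section

/-- The derivative of `cap`. -/
def capD (u : ℝ) : ℝ := 1 - smoothTransition (u - 1)

lemma contDiff_capD : ContDiff ℝ ∞ capD :=
  contDiff_const.sub (smoothTransition.contDiff.comp (contDiff_id.sub contDiff_const))

lemma capD_nonneg (u : ℝ) : 0 ≤ capD u := sub_nonneg.2 (smoothTransition.le_one _)

lemma capD_le_one (u : ℝ) : capD u ≤ 1 := sub_le_self _ (smoothTransition.nonneg _)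

lemma capD_of_le {u : ℝ} (h : u ≤ 1) : capD u = 1 := by
  simp [capD, smoothTransition.zero_of_nonpos (sub_nonpos.2 h)]

lemma capD_of_two_le {u : ℝ} (h : 2 ≤ u) : capD u = 0 := by
  simp [capD, smoothTransition.one_of_one_le (show 1 ≤ u - 1 by linarith)]

lemma antitone_capD : Antitone capD := fun _ _ h =>
  sub_le_sub_left (smoothTransition.monotone (by linarith)) _

lemma hasDerivAt_cap (u : ℝ) : HasDerivAt cap (capD u) u :=
  (contDiff_capD.continuous).integral_hasStrictDerivAt 0 u |>.hasDerivAt

lemma deriv_cap : deriv cap = capD := funext fun u => (hasDerivAt_cap u).deriv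

lemma contDiff_cap : ContDiff ℝ ∞ cap :=
  contDiff_infty_iff_deriv.2 ⟨fun u => (hasDerivAt_cap u).differentiableAt,
    by rw [deriv_cap]; exact contDiff_capD⟩

lemma cap_of_le {u : ℝ} (h : u ≤ 1) : cap u = u := by
  have : ∀ v ∈ Set.uIcc 0 u, 1 - smoothTransition (v - 1) = (1 : ℝ) := fun v hv => by
    have h2 : v ≤ max 0 u := hv.2
    have : v ≤ 1 := h2.trans (max_le zero_le_one h)
    simpa [capD] using capD_of_le this
  rw [cap, intervalIntegral.integral_congr this]; simp

lemma cap_zero : cap 0 = 0 := cap_of_le zero_le_one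

lemma monotone_cap : Monotone cap :=
  monotone_of_deriv_nonneg (fun u => (hasDerivAt_cap u).differentiableAt)
    (fun u => by rw [deriv_cap]; exact capD_nonneg u)

lemma cap_of_two_le {u : ℝ} (h : 2 ≤ u) : cap u = cap 2 := by
  have hi : ∀ a b : ℝ, IntervalIntegrable (fun v => 1 - smoothTransition (v - 1)) volume a b :=
    fun a b => contDiff_capD.continuous.intervalIntegrable a b
  have h0 : ∫ v in (2 : ℝ)..u, (1 - smoothTransition (v - 1)) = 0 := by
    rw [intervalIntegral.integral_congr (g := fun _ => (0 : ℝ))]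
    · simp
    · intro v hv
      rw [Set.uIcc_of_le h] at hv
      simpa [capD] using capD_of_two_le hv.1
  rw [cap, cap, ← intervalIntegral.integral_add_adjacent_intervals (hi 0 2) (hi 2 u), h0, add_zero]

lemma cap_le_cap_two (u : ℝ) : cap u ≤ cap 2 := by
  rcases le_total u 2 with h | h
  · exact monotone_cap h
  · exact (cap_of_two_le h).le

lemma cap_nonneg {u : ℝ} (h : 0 ≤ u) : 0 ≤ cap u := cap_zero ▸ monotone_cap h

lemma one_le_cap_two : 1 ≤ cap 2 := by
  simpa [cap_of_le le_rfl] using monotone_cap (show (1 : ℝ) ≤ 2 by norm_num)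

lemma cap_two_le : cap 2 ≤ 2 := by
  have := intervalIntegral.integral_mono_on (μ := volume) (a := (0 : ℝ)) (b := 2) (by norm_num)
    (contDiff_capD.continuous.intervalIntegrable _ _)
    (continuous_const.intervalIntegrable _ _) (fun v _ => capD_le_one v)
  simpa [cap, capD] using this

lemma cap_two_pos : 0 < cap 2 := zero_lt_one.trans_le one_le_cap_two

lemma cap_le_self {u : ℝ} (h : 0 ≤ u) : cap u ≤ u := by
  have := intervalIntegral.integral_mono_on (μ := volume) (a := (0 : ℝ)) (b := u) h
    (contDiff_capD.continuous.intervalIntegrable _ _)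
    (continuous_const.intervalIntegrable _ _) (fun v _ => capD_le_one v)
  simpa [cap, capD] using this

/-- `u cap'(u) ≤ cap u` for `0 ≤ u` (concavity). -/
lemma mul_capD_le_cap {u : ℝ} (h : 0 ≤ u) : u * capD u ≤ cap u := by
  have := intervalIntegral.integral_mono_on (μ := volume) (a := (0 : ℝ)) (b := u) h
    (continuous_const.intervalIntegrable _ _)
    (contDiff_capD.continuous.intervalIntegrable _ _) (f := fun _ => capD u)
    (fun v hv => antitone_capD hv.2)
  rw [intervalIntegral.integral_const, sub_zero, smul_eq_mul] at this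
  exact this

lemma deriv_capD_nonpos (u : ℝ) : deriv capD u ≤ 0 := antitone_capD.deriv_nonpos

lemma deriv_capD_bounded : ∃ C, 0 ≤ C ∧ ∀ u, |deriv capD u| ≤ C := by
  have hc : Continuous (deriv capD) := contDiff_capD.continuous_deriv (by simp)
  obtain ⟨C, hC⟩ := (isCompact_Icc (a := (0 : ℝ)) (b := 3)).exists_bound_of_continuousOn
    hc.continuousOn
  refine ⟨max C 0, le_max_right _ _, fun u => ?_⟩
  by_cases hu : u ∈ Set.Icc (0 : ℝ) 3
  · exact (hC u hu).trans (le_max_left _ _)
  · have : deriv capD u = 0 := by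
      rcases not_and_or.1 hu with h | h <;> push Not at h
      · have : capD =ᶠ[𝓝 u] fun _ => 1 := by
          filter_upwards [eventually_lt_nhds (show u < 1 by linarith)] with v hv using
            capD_of_le hv.le
        simp [this.deriv_eq]
      · have : capD =ᶠ[𝓝 u] fun _ => 0 := by
          filter_upwards [eventually_gt_nhds (show 2 < u by linarith)] with v hv using
            capD_of_two_le hv.le
        simp [this.deriv_eq]
    simp [this]

/-! ### `psi` -/

variable {S : ℝ}

lemma psi_of_pos (S : ℝ) {s : ℝ} (hs : 0 < s) : psi S s = cap (√S / √s) / √S := by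
  simp [psi, not_le.2 hs]

lemma psi_eq_max (hS : 0 < S) {s : ℝ} (hs : s ≤ S / 4) : psi S s = cap 2 / √S := by
  rcases le_or_gt s 0 with h | h
  · simp [psi, h]
  · rw [psi_of_pos S h, cap_of_two_le]
    rw [le_div_iff₀ (sqrt_pos.2 h), ← sqrt_sq (show (0 : ℝ) ≤ 2 by norm_num),
      ← sqrt_mul (by norm_num)]
    exact sqrt_le_sqrt (by linarith)

lemma psi_le_max (hS : 0 < S) (s : ℝ) : psi S s ≤ cap 2 / √S := by
  rcases le_or_gt s 0 with h | h
  · simp [psi, h]
  · rw [psi_of_pos S h]; gcongr; exact cap_le_cap_two _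

lemma psi_nonneg (hS : 0 < S) (s : ℝ) : 0 ≤ psi S s := by
  rcases le_or_gt s 0 with h | h
  · simp only [psi, if_pos h]; exact div_nonneg cap_two_pos.le (sqrt_nonneg _)
  · rw [psi_of_pos S h]; exact div_nonneg (cap_nonneg (by positivity)) (sqrt_nonneg _)

lemma contDiff_psi (hS : 0 < S) : ContDiff ℝ ∞ (psi S) := by
  refine contDiff_iff_contDiffAt.2 fun s => ?_
  by_cases h : s < S / 4
  · refine (contDiffAt_const (c := cap 2 / √S)).congr_of_eventuallyEq ?_
    filter_upwards [eventually_lt_nhds h] with t ht using psi_eq_max hS ht.le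
  · have hs : 0 < s := by linarith [not_lt.1 h]
    have h1 : ContDiffAt ℝ ∞ (fun t => cap (√S / √t) / √S) s :=
      ((contDiff_cap.contDiffAt).comp s (contDiffAt_const.div (contDiffAt_id.sqrt hs.ne')
        (sqrt_pos.2 hs).ne')).div_const _
    refine h1.congr_of_eventuallyEq ?_
    filter_upwards [eventually_gt_nhds hs] with t ht using psi_of_pos S ht

lemma hasDerivAt_invSqrt {s : ℝ} (hs : 0 < s) :
    HasDerivAt (fun t => 1 / √t) (-(1 / (2 * s * √s))) s := by
  have h := ((hasDerivAt_sqrt hs.ne').inv (sqrt_pos.2 hs).ne')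
  rw [show (fun t => 1 / √t) = (fun t => √t)⁻¹ from funext fun t => by simp]
  refine h.congr_deriv ?_
  have := sq_sqrt hs.le
  have := (sqrt_pos.2 hs).ne'
  field_simp
  nlinarith

lemma hasDerivAt_psi (hS : 0 < S) {s : ℝ} (hs : 0 < s) :
    HasDerivAt (psi S) (-(capD (√S / √s) / (2 * s * √s))) s := by
  have h0 : HasDerivAt (fun t => √S / √t) (√S * -(1 / (2 * s * √s))) s :=
    ((hasDerivAt_invSqrt hs).const_mul √S).congr_of_eventuallyEq
      (Eventually.of_forall fun t => by simp [div_eq_mul_inv])
  have h := ((hasDerivAt_cap (√S / √s)).comp s h0).div_const √S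
  refine (h.congr_of_eventuallyEq ?_).congr_deriv ?_
  · filter_upwards [eventually_gt_nhds hs] with t ht using psi_of_pos S ht
  · have := (sqrt_pos.2 hS).ne'
    field_simp

end

end Vale.Agent.P225
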