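import Vale.Agent.P225.Profile.Theta

/-!
# P225: the structure switches only where `theta` vanishes
-/

namespace Vale.Agent.P225

open Filter Topology

noncomputable section

variable {M j₀ : ℕ}

lemma switch_or_zero (hM : 3 * M + 4 ≤ j₀) (τ : ℕ → Fin M → ℝ) (s : ℝ) :
    (∀ᶠ t in 𝓝 s, segment M j₀ t = segment M j₀ s) ∨
      (∀ᶠ t in 𝓝 s, theta M j₀ τ t = 0) := by
  rcases theta_eventually hM τ s with h | ⟨j, hj, h1, h2, h⟩
  · exact Or.inr h
  have hN : 0 < unit' j := unit_pos (by omega)
  have hfit := fits (M := M) (j := j) (by omega)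
  rw [plen] at hfit
  rcases lt_or_ge ((j : ℝ) ^ 8 + 3 * (M : ℝ) * unit' j) s with hs | hs
  · left
    rw [segment_in_dwell hM hj hs.le h2]
    filter_upwards [eventually_gt_nhds hs, eventually_lt_nhds h2] with t ht1 ht2 using
      segment_in_dwell hM hj ht1.le ht2
  set x := (s - (j : ℝ) ^ 8) / (3 * unit' j) with hx
  have hx0 : 0 ≤ x := div_nonneg (by linarith) (by positivity)
  have hxM : x ≤ M := by rw [hx, div_le_iff₀ (by positivity)]; linarith
  have hsx : s = (j : ℝ) ^ 8 + 3 * x * unit' j := by rw [hx]; field_simp; ring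
  set k := ⌊x⌋₊ with hk
  have hk1 : (k : ℝ) ≤ x := Nat.floor_le hx0
  have hk2 : x < (k : ℝ) + 1 := Nat.lt_floor_add_one x
  rcases hk1.lt_or_eq with hlt | heq
  · have hkM : k < M := by exact_mod_cast hlt.trans_le hxM
    have a : (j : ℝ) ^ 8 + 3 * (k : ℝ) * unit' j < s := by rw [hsx]; nlinarith
    have b : s < (j : ℝ) ^ 8 + 3 * ((k : ℝ) + 1) * unit' j := by rw [hsx]; nlinarith
    left
    rw [segment_in_excursion hM hj ⟨k, hkM⟩ a.le b]
    filter_upwards [eventually_gt_nhds a, eventually_lt_nhds b] with t ht1 ht2 using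
      segment_in_excursion hM hj ⟨k, hkM⟩ ht1.le ht2
  · right
    have hkM : (k : ℝ) ≤ M := heq ▸ hxM
    have a : s - unit' j < s := by linarith
    have b : s < s + unit' j := by linarith
    filter_upwards [h, eventually_gt_nhds a, eventually_lt_nhds b] with t ht ht1 ht2
    rw [ht, thetaPiece_eq]
    rw [hsx, ← heq] at ht1 ht2
    have hMk := mul_le_mul_of_nonneg_right hkM hN.le
    rw [plateau_zero_left hN (by linarith), mul_zero, add_zero]
    refine Finset.sum_eq_zero fun i _ => ?_
    rw [bump_shift_zero hN, mul_zero]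
    rcases lt_or_ge (i : ℕ) k with hik | hik
    · right
      have : ((i : ℕ) : ℝ) + 1 ≤ k := by exact_mod_cast hik
      have := mul_le_mul_of_nonneg_right this hN.le
      linarith
    · left
      have : ((k : ℕ) : ℝ) ≤ ((i : ℕ) : ℝ) := by exact_mod_cast hik
      have := mul_le_mul_of_nonneg_right this hN.le
      linarith

end

end Vale.Agent.P225
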